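import Vale.Agent.P312.Frag

/-! Functions computable with polynomially bounded counters. -/

namespace Vale.Agent.P312

open Function

variable {a : ℕ}

/-- Polynomially bounded in `N`. -/
def PB {Ω : Type} (N f : Ω → ℕ) : Prop := ∃ d, ∀ ω, f ω ≤ (N ω + 2) ^ d

namespace PB

variable {Ω : Type} {N f g : Ω → ℕ}

theorem of_le (h : PB N g) (hf : ∀ ω, f ω ≤ g ω) : PB N f :=
  let ⟨d, hd⟩ := h; ⟨d, fun ω => (hf ω).trans (hd ω)⟩

theorem refl : PB N N := ⟨1, fun ω => by simp⟩

theorem const (c : ℕ) : PB N fun _ => c :=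
  ⟨c, fun _ => (Nat.lt_two_pow_self).le.trans (Nat.pow_le_pow_left (by omega) _)⟩

theorem mul (hf : PB N f) (hg : PB N g) : PB N fun ω => f ω * g ω :=
  let ⟨d, hd⟩ := hf; let ⟨e, he⟩ := hg
  ⟨d + e, fun ω => by rw [pow_add]; exact Nat.mul_le_mul (hd ω) (he ω)⟩

theorem add (hf : PB N f) (hg : PB N g) : PB N fun ω => f ω + g ω := by
  obtain ⟨d, hd⟩ := hf
  obtain ⟨e, he⟩ := hg
  refine ⟨d + e + 1, fun ω => ?_⟩
  have h1 : (N ω + 2) ^ d ≤ (N ω + 2) ^ (d + e) := Nat.pow_le_pow_right (by omega) (by omega)
  have h2 : (N ω + 2) ^ e ≤ (N ω + 2) ^ (d + e) := Nat.pow_le_pow_right (by omega) (by omega)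
  have := hd ω
  have := he ω
  rw [pow_succ]
  nlinarith

theorem pow (hf : PB N f) (k : ℕ) : PB N fun ω => f ω ^ k :=
  let ⟨d, hd⟩ := hf
  ⟨d * k, fun ω => by rw [pow_mul]; exact Nat.pow_le_pow_left (hd ω) _⟩

theorem trans (hf : PB g f) (hg : PB N g) : PB N f :=
  let ⟨d, hd⟩ := hf
  ((hg.add (const 2)).pow d).of_le hd

theorem sum {ι : Type} (s : Finset ι) {F : Ω → ι → ℕ} (h : ∀ j, PB N fun ω => F ω j) :
    PB N fun ω => ∑ j ∈ s, F ω j := by
  classical
  induction s using Finset.induction_on with
  | empty => simpa using const 0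
  | insert j s hj ih => simpa [Finset.sum_insert hj] using (h j).add ih

theorem comp {Ω' : Type} (h : PB N f) (φ : Ω' → Ω) : PB (fun ω => N (φ ω)) fun ω => f (φ ω) :=
  let ⟨d, hd⟩ := h; ⟨d, fun ω => hd _⟩

end PB

section macros

variable {x : List (Fin a)} {B i : ℕ} {σ : ℕ → ℕ}

theorem R.cast {F : Frag a} {i' σ' σ''} (H : R x F B i σ i' σ') (h : σ' = σ'') :
    R x F B i σ i' σ'' := h ▸ H

theorem R.cast' {F : Frag a} {i' σ' σ''} (H : R x F B i σ' i' σ) (h : σ' = σ'') :
    R x F B i σ'' i' σ := h ▸ H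

def clear (r : ℕ) : Frag a := loop r (dec r)

theorem R.clear (hi : i ≤ x.length + 1) (r : ℕ) (hB : σ r ≤ B) :
    R x (clear r) B i σ i (update σ r 0) := by
  have := R.loopN (x := x) (B := B) (r := r) (F := P312.dec r) (fun _ => i)
    (fun k => update σ r (σ r - k)) (σ r) (fun _ => hi) (by simp) fun k hk =>
      ⟨by simp; omega, (R.dec hi r (by simp; omega) (by simp; omega)).cast (by simp [Nat.sub_sub])⟩
  exact (this.cast (by simp)).cast' (by simp)

def move (s d : ℕ) : Frag a := loop s (seq (dec s) (inc d))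

theorem R.move (hi : i ≤ x.length + 1) {s d : ℕ} (h : s ≠ d) (hB : σ s + σ d ≤ B) :
    R x (move s d) B i σ i (update (update σ s 0) d (σ d + σ s)) := by
  have := R.loopN (x := x) (B := B) (r := s) (F := P312.seq (P312.dec s) (P312.inc d)) (fun _ => i)
    (fun k => update (update σ s (σ s - k)) d (σ d + k)) (σ s) (fun _ => hi) (by simp [h])
    fun k hk => ⟨by simp [h]; omega,
      ((R.dec hi s (by simp [h]; omega) (by simp [h]; omega)).seq
        (R.inc hi d (by simp [h.symm]; omega))).cast (by
          funext r; simp only [update_apply]; split_ifs <;> first | rfl | omega | (subst_vars; first | rfl | omega))⟩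
  exact (this.cast (by simp)).cast' (by simp)

def copy (s d t : ℕ) : Frag a := seq (loop s (seq (dec s) (seq (inc d) (inc t)))) (move t s)

theorem R.copy (hi : i ≤ x.length + 1) {s d t : ℕ} (h : s ≠ d) (h1 : s ≠ t) (h2 : d ≠ t)
    (ht : σ t = 0) (hB : σ s + σ d ≤ B) :
    R x (copy s d t) B i σ i (update σ d (σ d + σ s)) := by
  have := R.loopN (x := x) (B := B) (r := s)
    (F := P312.seq (P312.dec s) (P312.seq (P312.inc d) (P312.inc t))) (fun _ => i)
    (fun k => update (update (update σ s (σ s - k)) d (σ d + k)) t k) (σ s) (fun _ => hi)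
    (by simp [h, h1])
    fun k hk => ⟨by simp [h, h1]; omega,
      ((R.dec hi s (by simp [h, h1]; omega) (by simp [h, h1]; omega)).seq
        ((R.inc hi d (by simp [h.symm, h2]; omega)).seq
          (R.inc hi t (by simp [h1.symm, h2.symm]; omega)))).cast (by
          funext r; simp only [update_apply]; split_ifs <;> first | rfl | omega | (subst_vars; first | rfl | omega))⟩
  refine (this.cast' ?_).seq ((R.move hi h1.symm (by simp [h, h1]; omega)).cast ?_)
  · funext r; simp only [update_apply]; split_ifs <;> first | rfl | omega | (subst_vars; first | rfl | omega)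
  · funext r; simp only [update_apply]; split_ifs <;> first | rfl | omega | (subst_vars; first | rfl | omega)

def incN (r : ℕ) : ℕ → Frag a
  | 0 => mv Move.stay
  | n + 1 => seq (incN r n) (inc r)

theorem R.incN (hi : i ≤ x.length + 1) (r : ℕ) : ∀ n, σ r + n ≤ B →
    R x (incN r n) B i σ i (update σ r (σ r + n))
  | 0, _ => by
    have := R.mv (x := x) (B := B) (i := i) (σ := σ) Move.stay
    simp only [Move.act, min_eq_left hi] at this
    exact this.cast (by simp)
  | n + 1, h => ((R.incN hi r n (by omega)).seq (R.inc hi r (by simp; omega))).cast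
      (by simp [add_assoc])

end macros

/-- Code of an input symbol. -/
def syc : Sy a → ℕ
  | none => 0
  | some none => 1
  | some (some s) => s + 2

/-- Code of the input symbol at cell `i`. -/
def letter (x : List (Fin a)) (i : ℕ) : ℕ := syc (inSym x (min i (x.length + 1)))

theorem syc_le (s : Sy a) : syc s ≤ a + 2 := by
  rcases s with _ | _ | s <;> simp [syc]

variable {Ω ι : Type} [Fintype ι]

def szc (inp : Ω → List (Fin a)) (E : Ω → ι → ℕ) (ω : Ω) : ℕ := ∑ j, E ω j + (inp ω).length

theorem pb_E (inp : Ω → List (Fin a)) (E : Ω → ι → ℕ) (j : ι) : PB (szc inp E) fun ω => E ω j :=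
  PB.refl.of_le fun ω =>
    (Finset.single_le_sum (f := E ω) (fun _ _ => Nat.zero_le _) (Finset.mem_univ j)).trans
      (Nat.le_add_right _ _)

theorem pb_len (inp : Ω → List (Fin a)) (E : Ω → ι → ℕ) : PB (szc inp E) fun ω => (inp ω).length :=
  PB.refl.of_le fun _ => Nat.le_add_left _ _

/-- `f` is computable from the registers `E` and the input `inp`. -/
def CF (inp : Ω → List (Fin a)) (E : Ω → ι → ℕ) (f : Ω → ℕ) : Prop :=
  PB (szc inp E) f ∧ ∀ (loc : ι → ℕ) (out base : ℕ), (∀ j, loc j < base) → out < base →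
    (∀ j, loc j ≠ out) → ∃ (F : Frag a) (Bd : Ω → ℕ), PB (szc inp E) Bd ∧
      ∀ ω σ, (∀ j, σ (loc j) = E ω j) → σ out = 0 → (∀ r, base ≤ r → σ r = 0) →
        R (inp ω) F (Bd ω) 0 σ 0 (update σ out (f ω))

namespace CF

variable {inp : Ω → List (Fin a)} {E : Ω → ι → ℕ} {f g : Ω → ℕ}

theorem pull {Ω' : Type} (h : CF inp E f) (φ : Ω' → Ω) :
    CF (fun ω => inp (φ ω)) (fun ω => E (φ ω)) fun ω => f (φ ω) := by
  refine ⟨h.1.comp φ, fun loc out base h1 h2 h3 => ?_⟩
  obtain ⟨F, Bd, hB, hF⟩ := h.2 loc out base h1 h2 h3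
  exact ⟨F, fun ω => Bd (φ ω), hB.comp φ, fun ω σ => hF (φ ω) σ⟩

theorem const (c : ℕ) : CF inp E fun _ => c := by
  refine ⟨PB.const c, fun loc out base _ _ _ => ⟨incN out c, fun _ => c, PB.const c, ?_⟩⟩
  intro ω σ _ h2 _
  exact (R.incN (Nat.zero_le _) out c (by simp [h2])).cast (by simp [h2])

theorem proj (j : ι) : CF inp E fun ω => E ω j := by
  refine ⟨pb_E _ _ j, fun loc out base h1 h2 h3 => ⟨copy (loc j) out base, _, pb_E _ _ j, ?_⟩⟩
  intro ω σ h4 h5 h6
  exact (R.copy (Nat.zero_le _) (h3 j) (h1 j).ne h2.ne (h6 _ le_rfl) (by rw [h4, h5]; omega)).cast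
    (by simp [h4, h5])

theorem succ (h : CF inp E f) : CF inp E fun ω => f ω + 1 := by
  refine ⟨h.1.add (PB.const 1), fun loc out base h1 h2 h3 => ?_⟩
  obtain ⟨F, Bd, hB, hF⟩ := h.2 loc out base h1 h2 h3
  refine ⟨seq F (inc out), _, hB.add h.1, fun ω σ h4 h5 h6 => ?_⟩
  exact (((hF ω σ h4 h5 h6).mono (by omega)).seq (R.inc (Nat.zero_le _) out (by simp))).cast (by simp)

theorem letter (h : CF inp E f) : CF inp E fun ω => letter (inp ω) (f ω) := by
  refine ⟨(PB.const (a + 2)).of_le fun _ => syc_le _, fun loc out base h1 h2 h3 => ?_⟩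
  obtain ⟨F, Bd, hB, hF⟩ := h.2 loc base (base + 2) (fun j => by have := h1 j; omega) (by omega)
    fun j => (h1 j).ne
  refine ⟨seq F (seq (loop base (seq (dec base) (seq (inc (base + 1)) (mv Move.right))))
    (seq (sw fun s => incN out (syc s)) (loop (base + 1) (seq (dec (base + 1)) (mv Move.left))))),
    _, (hB.add h.1).add (PB.const (a + 2)), fun ω σ h4 h5 h6 => ?_⟩
  have hb0 := h6 base le_rfl
  have hb1 := h6 (base + 1) (by omega)
  have hne : out ≠ base := by omega
  have hne1 : out ≠ base + 1 := by omega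
  refine ((hF ω σ h4 hb0 fun r hr => h6 r (by omega)).mono (by omega)).seq ?_
  dsimp only
  generalize f ω = n
  generalize Bd ω = B
  generalize inp ω = x
  have L1 := R.loopN (x := x) (B := B + n + (a + 2)) (r := base)
    (F := seq (dec base) (seq (inc (base + 1)) (mv Move.right))) (fun k => min k (x.length + 1))
    (fun k => update (update σ base (n - k)) (base + 1) k) n (fun _ => min_le_right _ _) (by simp)
    fun k hk => ⟨by simp; omega, by
      have := ((R.dec (x := x) (B := B + n + (a + 2)) (i := min k (x.length + 1))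
        (σ := update (update σ base (n - k)) (base + 1) k) (min_le_right _ _) base
        (by simp; omega) (by simp; omega)).seq
        ((R.inc (min_le_right _ _) (base + 1) (by simp; omega)).seq (R.mv Move.right)))
      rw [show min (Move.right.act (min k (x.length + 1))) (x.length + 1) = min (k + 1) (x.length + 1)
        by simp only [Move.act]; omega] at this
      exact this.cast (by funext r; simp only [update_apply]; split_ifs <;> first | rfl | omega | (subst_vars; first | rfl | omega))⟩
  have L2 := R.loopN (x := x) (B := B + n + (a + 2)) (r := base + 1)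
    (F := seq (dec (base + 1)) (mv Move.left)) (fun k => min n (x.length + 1) - k)
    (fun k => update (update σ out (P312.letter x n)) (base + 1) (n - k)) n
    (fun _ => (Nat.sub_le _ _).trans (min_le_right _ _)) (by simp)
    fun k hk => ⟨by simp; omega, by
      have := ((R.dec (x := x) (B := B + n + (a + 2)) (i := min n (x.length + 1) - k)
        (σ := update (update σ out (P312.letter x n)) (base + 1) (n - k))
        ((Nat.sub_le _ _).trans (min_le_right _ _)) (base + 1)
        (by simp; omega) (by simp; omega)).seq (R.mv Move.left))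
      rw [show min (Move.left.act (min n (x.length + 1) - k)) (x.length + 1) =
        min n (x.length + 1) - (k + 1) by simp only [Move.act]; omega] at this
      exact this.cast (by simp [Nat.sub_sub])⟩
  simp only [Nat.zero_min, Nat.sub_zero, Nat.sub_self] at L1 L2
  rw [show min n (x.length + 1) - n = 0 by omega] at L2
  refine (L1.cast' ?_).seq ((R.sw (min_le_right _ _)
    (R.incN (min_le_right _ _) out _ ?_)).seq ((L2.cast ?_).cast' ?_))
  · funext r; simp only [update_apply]; split_ifs <;> first | rfl | omega | (subst_vars; first | rfl | omega)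
  · have := syc_le (inSym x (min n (x.length + 1)))
    simp [hne, hne1, h5]; omega
  · funext r; simp only [update_apply]; split_ifs <;> first | rfl | omega | (subst_vars; first | rfl | omega)
  · funext r; simp only [update_apply, P312.letter]; split_ifs <;> first | rfl | omega | (subst_vars; first | rfl | omega)

/-- Registers `base, ..., base + k - 1` filled with the values `G`. -/
def fil (base k : ℕ) (G : ℕ → ℕ) (σ : ℕ → ℕ) (r : ℕ) : ℕ :=
  if base ≤ r ∧ r < base + k then G (r - base) else σ r

theorem fil_succ (base k : ℕ) (G σ : ℕ → ℕ) :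
    fil base (k + 1) G σ = update (fil base k G σ) (base + k) (G k) := by
  funext r
  simp only [fil, update_apply]
  split_ifs <;> first | rfl | omega | (subst_vars; simp)

theorem fill (G : ℕ → Ω → ℕ) (n : ℕ) (hG : ∀ i < n, CF inp E (G i)) (loc : ι → ℕ) (base : ℕ)
    (h1 : ∀ j, loc j < base) : ∀ k ≤ n, ∃ (F F' : Frag a) (Bd : Ω → ℕ), PB (szc inp E) Bd ∧
      (∀ ω σ, (∀ j, σ (loc j) = E ω j) → (∀ r, base ≤ r → σ r = 0) →
        R (inp ω) F (Bd ω) 0 σ 0 (fil base k (fun i => G i ω) σ)) ∧
      (∀ ω σ, (∀ r, base ≤ r → σ r = 0) →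
        R (inp ω) F' (Bd ω) 0 (fil base k (fun i => G i ω) σ) 0 σ) := by
  intro k
  induction k with
  | zero =>
    intro _
    have e : ∀ G σ, fil base 0 G σ = σ := fun G σ => by funext r; simp [fil]
    exact ⟨mv Move.stay, mv Move.stay, _, PB.const 0, fun ω σ _ _ => by rw [e]; exact R.mv _,
      fun ω σ _ => by rw [e]; exact R.mv _⟩
  | succ k ih =>
    intro hk
    obtain ⟨F, F', Bd, hB, h2, h3⟩ := ih (by omega)
    obtain ⟨F2, Bd2, hB2, h4⟩ := (hG k (by omega)).2 loc (base + k) (base + n)
      (fun j => by have := h1 j; omega) (by omega) fun j => by have := h1 j; omega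
    refine ⟨seq F F2, seq (clear (base + k)) F', _, (hB.add hB2).add (hG k (by omega)).1,
      fun ω σ h5 h6 => ?_, fun ω σ h6 => ?_⟩
    · rw [fil_succ]
      refine ((h2 ω σ h5 h6).mono (by omega)).seq ((h4 ω _ (fun j => ?_) ?_ fun r hr => ?_).mono (by omega))
      · have := h1 j
        rw [fil, if_neg (by omega), h5]
      · rw [fil, if_neg (by omega), h6 _ (by omega)]
      · rw [fil, if_neg (by omega), h6 _ (by omega)]
    · rw [fil_succ]
      refine ((R.clear (Nat.zero_le _) _ (by simp)).cast ?_).seq ((h3 ω σ h6).mono (by omega))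
      rw [update_idem, update_eq_self_iff, fil, if_neg (by omega), h6 _ (by omega)]

theorem subst {ι' : Type} [Fintype ι'] {E' : Ω → ι' → ℕ} (h : CF inp E' f)
    (hE : ∀ j, CF inp E fun ω => E' ω j) : CF inp E f := by
  have hsz : PB (szc inp E) (szc inp E') :=
    (PB.sum _ fun j => (hE j).1).add (pb_len _ _)
  refine ⟨h.1.trans hsz, fun loc out base h1 h2 h3 => ?_⟩
  obtain ⟨n, ⟨e⟩⟩ := Finite.exists_equiv_fin ι'
  obtain ⟨F, F', Bd, hB, h4, h5⟩ := fill (inp := inp) (E := E)
    (fun i ω => if hi : i < n then E' ω (e.symm ⟨i, hi⟩) else 0) n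
    (fun i hi => by simpa only [dif_pos hi] using hE _) loc base h1 n le_rfl
  obtain ⟨F2, Bd2, hB2, h6⟩ := h.2 (fun j => base + e j) out (base + n)
    (fun j => by have := (e j).2; omega) (by omega) fun j => by omega
  refine ⟨seq F (seq F2 F'), _, hB.add (hB2.trans hsz), fun ω σ h7 h8 h9 => ?_⟩
  refine ((h4 ω σ h7 h9).mono (by omega)).seq (((h6 ω _ (fun j => ?_) ?_ fun r hr => ?_).mono
    (by omega)).seq (((h5 ω (update σ out (f ω)) fun r hr => ?_).mono (by omega)).cast' ?_))
  · have := (e j).2
    rw [fil, if_pos (by omega)]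
    simp
  · rw [fil, if_neg (by omega), h8]
  · rw [fil, if_neg (by omega), h9 _ (by omega)]
  · rw [update_of_ne (by omega), h9 r hr]
  · funext r
    simp only [fil, update_apply]
    split_ifs <;> first | rfl | omega | (subst_vars; first | rfl | omega)

theorem natRec {y : Ω → ℕ} (hy : CF inp E y) (G : Ω → ℕ → ℕ) (h0 : CF inp E fun ω => G ω 0)
    (H : Ω × ℕ × ℕ → ℕ)
    (hH : CF (fun u : Ω × ℕ × ℕ => inp u.1)
      (fun u (o : Option (Option ι)) => o.elim u.2.2 fun o => o.elim u.2.1 (E u.1)) H)
    (hG : ∀ ω n, G ω (n + 1) = H (ω, n, G ω n))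
    (Bd : Ω → ℕ) (hBd : PB (szc inp E) Bd) (hb : ∀ ω n, n ≤ y ω → G ω n ≤ Bd ω) :
    CF inp E fun ω => G ω (y ω) := by
  refine ⟨hBd.of_le fun ω => hb ω _ le_rfl, fun loc out base h1 h2 h3 => ?_⟩
  obtain ⟨F1, B1, hB1, g1⟩ := hy.2 loc base (base + 3) (fun j => by have := h1 j; omega) (by omega)
    fun j => (h1 j).ne
  obtain ⟨F2, B2, hB2, g2⟩ := h0.2 loc out (base + 3) (fun j => by have := h1 j; omega) (by omega) h3
  obtain ⟨F3, B3, ⟨d, hB3⟩, g3⟩ := hH.2 (fun o => o.elim out fun o => o.elim (base + 1) loc) (base + 2)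
    (base + 3) (by rintro (_ | _ | j) <;> simp; omega; have := h1 j; omega) (by omega)
    (by rintro (_ | _ | j) <;> simp; omega; have := h1 j; omega)
  have hB4 : PB (szc inp E) fun ω => (szc inp E ω + y ω + Bd ω + 2) ^ d :=
    (((PB.refl.add hy.1).add hBd).add (PB.const 2)).pow d
  refine ⟨seq F1 (seq F2 (seq (loop base (seq (dec base) (seq F3 (seq (clear out)
    (seq (move (base + 2) out) (inc (base + 1))))))) (clear (base + 1)))), _,
    (((hB1.add hB2).add hB4).add hy.1).add hBd, fun ω σ h4 h5 h6 => ?_⟩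
  have hb0 := h6 base le_rfl
  have hb1 := h6 (base + 1) (by omega)
  have hb2 := h6 (base + 2) (by omega)
  have n0 : out ≠ base := by omega
  have n1 : out ≠ base + 1 := by omega
  have n2 : out ≠ base + 2 := by omega
  have L := R.loopN (x := inp ω) (B := B1 ω + B2 ω + (szc inp E ω + y ω + Bd ω + 2) ^ d + y ω + Bd ω)
    (r := base) (F := seq (dec base) (seq F3 (seq (clear out)
      (seq (move (base + 2) out) (inc (base + 1)))))) (fun _ => 0)
    (fun k => update (update (update σ base (y ω - k)) out (G ω k)) (base + 1) k) (y ω)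
    (fun _ => Nat.zero_le _) (by simp [n0.symm])
    fun k hk => ⟨by simp [n0.symm]; omega, by
      have c1 := hb ω k hk.le
      have c2 := hb ω (k + 1) hk
      have c3 : B3 (ω, k, G ω k) ≤ (szc inp E ω + y ω + Bd ω + 2) ^ d := by
        refine (hB3 _).trans (Nat.pow_le_pow_left ?_ _)
        simp only [szc, Fintype.sum_option, Option.elim]
        omega
      refine ((R.dec (Nat.zero_le _) base (by simp [n0.symm]; omega) (by simp [n0.symm]; omega)).seq
        (((g3 (ω, k, G ω k) _ ?_ ?_ fun r hr => ?_).mono (by omega)).seq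
        ((R.clear (Nat.zero_le _) out ?_).seq ((R.move (Nat.zero_le _) n2.symm ?_).seq
        (R.inc (Nat.zero_le _) (base + 1) ?_))))).cast ?_
      · rintro (_ | _ | j)
        · simp [n0, n1]
        · simp
        · have := h1 j
          have := h3 j
          simp only [Option.elim]
          rw [update_of_ne (by omega), update_of_ne (by omega), update_of_ne (by omega),
            update_of_ne (by omega), h4]
      · simp [n2.symm, hb2]
      · rw [update_of_ne (by omega), update_of_ne (by omega), update_of_ne (by omega),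
          update_of_ne (by omega), h6 r (by omega)]
      · simp [n0, n1, n2]; omega
      · simp [n2.symm, ← hG]; omega
      · simp [n1.symm]; omega
      · funext r; simp only [update_apply, hG]; split_ifs <;> first | rfl | omega | (subst_vars; first | rfl | omega)⟩
  refine ((g1 ω σ h4 hb0 fun r hr => h6 r (by omega)).mono (by omega)).seq
    (((g2 ω _ (fun j => ?_) ?_ fun r hr => ?_).mono (by omega)).seq
      ((L.cast' ?_).seq ((R.clear (Nat.zero_le _) _ ?_).cast ?_)))
  · rw [update_of_ne (h1 j).ne, h4]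
  · rw [update_of_ne n0, h5]
  · rw [update_of_ne (by omega), h6 r (by omega)]
  · funext r; simp only [update_apply]; split_ifs <;> first | rfl | omega | (subst_vars; first | rfl | omega)
  · simp; omega
  · funext r; simp only [update_apply]; split_ifs <;> first | rfl | omega | (subst_vars; first | rfl | omega)

end CF

end Vale.Agent.P312
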