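import Mathlib

namespace Vale.Agent.P312

/-- Head moves. -/
inductive Move
  | left
  | stay
  | right

/-- Effect of a move on a two-way infinite tape. -/
def Move.int : Move → ℤ
  | Move.left => -1
  | Move.stay => 0
  | Move.right => 1

/-- Effect of a move on a one-way infinite tape. -/
def Move.act : Move → ℕ → ℕ
  | Move.left, h => h - 1
  | Move.stay, h => h
  | Move.right, h => h + 1

/-- Deterministic one-tape Turing machine with input alphabet `Fin a`. -/
structure TM1 (a : ℕ) where
  nq : ℕ
  ng : ℕ
  start : Fin nq
  blank : Fin ng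
  sym : Fin a → Fin ng
  out : Fin nq → Option Bool
  δ : Fin nq → Fin ng → Fin nq × Fin ng × Move

/-- Configurations of a one-tape machine (two-way infinite tape). -/
structure Cfg1 {a : ℕ} (M : TM1 a) where
  state : Fin M.nq
  head : ℤ
  tape : ℤ → Fin M.ng

/-- One step; halting states do not move. -/
def step1 {a : ℕ} (M : TM1 a) (c : Cfg1 M) : Cfg1 M :=
  if M.out c.state = none then
    { state := (M.δ c.state (c.tape c.head)).1
      head := c.head + (M.δ c.state (c.tape c.head)).2.2.int
      tape := Function.update c.tape c.head (M.δ c.state (c.tape c.head)).2.1 }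
  else c

/-- Initial configuration: the input on cells `0, 1, ...`, blanks elsewhere. -/
def init1 {a : ℕ} (M : TM1 a) (x : List (Fin a)) : Cfg1 M :=
  { state := M.start
    head := 0
    tape := fun i => if 0 ≤ i then ((x.map M.sym)[i.toNat]?).getD M.blank else M.blank }

/-- Languages decided by a one-tape machine halting within `t n` steps. -/
def TIME1 (a : ℕ) (t : ℕ → ℕ) : Set (Set (List (Fin a))) :=
  {L | ∃ M : TM1 a, ∀ x : List (Fin a), ∃ b : Bool,
    M.out ((step1 M)^[t x.length] (init1 M x)).state = some b ∧ (b = true ↔ x ∈ L)}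

/-- Deterministic machine with a read-only input tape and `k` work tapes. -/
structure TMS (a : ℕ) where
  k : ℕ
  Q : Type
  Γ : Type
  finQ : Finite Q
  finΓ : Finite Γ
  start : Q
  blank : Γ
  out : Q → Option Bool
  δ : Q → Option (Option (Fin a)) → (Fin k → Γ) → Q × Move × (Fin k → Γ × Move)

/-- Configurations of a machine with read-only input. -/
structure CfgS {a : ℕ} (M : TMS a) where
  state : M.Q
  ihead : ℕ
  head : Fin M.k → ℕ
  tape : Fin M.k → ℕ → M.Γ

/-- Input tape: left end marker `none` at cell `0`, letters, right end marker `some none`. -/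
def inSym {a : ℕ} (x : List (Fin a)) (i : ℕ) : Option (Option (Fin a)) :=
  if i = 0 then none else some x[i - 1]?

/-- One step on input `x`; the input head stays between the end markers. -/
def stepS {a : ℕ} (M : TMS a) (x : List (Fin a)) (c : CfgS M) : CfgS M :=
  if M.out c.state = none then
    { state := (M.δ c.state (inSym x c.ihead) (fun j => c.tape j (c.head j))).1
      ihead := min ((M.δ c.state (inSym x c.ihead) (fun j => c.tape j (c.head j))).2.1.act c.ihead)
        (x.length + 1)
      head := fun j =>
        ((M.δ c.state (inSym x c.ihead) (fun j => c.tape j (c.head j))).2.2 j).2.act (c.head j)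
      tape := fun j => Function.update (c.tape j) (c.head j)
        ((M.δ c.state (inSym x c.ihead) (fun j => c.tape j (c.head j))).2.2 j).1 }
  else c

/-- Initial configuration: all heads on cell `0`, blank work tapes. -/
def initS {a : ℕ} (M : TMS a) : CfgS M :=
  { state := M.start
    ihead := 0
    head := fun _ => 0
    tape := fun _ _ => M.blank }

/-- Languages decided with `O(s n)` work-tape cells. -/
def SPACE (a : ℕ) (s : ℕ → ℝ) : Set (Set (List (Fin a))) :=
  {L | ∃ (M : TMS a) (c : ℝ), ∀ x : List (Fin a),
    (∃ (τ : ℕ) (b : Bool), M.out ((stepS M x)^[τ] (initS M)).state = some b ∧ (b = true ↔ x ∈ L)) ∧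
    ∀ (τ : ℕ) (j : Fin M.k), (((stepS M x)^[τ] (initS M)).head j : ℝ) ≤ c * s x.length + c}

end Vale.Agent.P312
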