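import Vale.Agent.P312.Defs

/-! Machine fragments acting on binary counters. -/

namespace Vale.Agent.P312

open Function

abbrev Sy (a : ℕ) := Option (Option (Fin a))
abbrev Gm := Option Bool

/-- A machine fragment; every state touches one work tape. -/
structure Frag (a : ℕ) where
  Q : Type
  fin : Finite Q
  entry : Q
  tp : Q → ℕ
  δ : Q → Sy a → Gm → (Gm × Move × Move) × Option Q

/-- Raw configurations: input head, and head and content of every work tape. -/
abbrev RC := ℕ × (ℕ → ℕ × (ℕ → Gm))

variable {a : ℕ}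

def doAct (x : List (Fin a)) (r : ℕ) (d : Gm × Move × Move) (c : RC) : RC :=
  (min (d.2.2.act c.1) (x.length + 1),
    update c.2 r (d.2.1.act (c.2 r).1, update (c.2 r).2 (c.2 r).1 d.1))

def Frag.look (F : Frag a) (x : List (Fin a)) (q : F.Q) (c : RC) : (Gm × Move × Move) × Option F.Q :=
  F.δ q (inSym x c.1) ((c.2 (F.tp q)).2 (c.2 (F.tp q)).1)

/-- Terminating runs with all touched heads bounded by `h`. -/
inductive Run (x : List (Fin a)) (F : Frag a) (h : ℕ) : Option F.Q → RC → RC → Prop
  | done (c : RC) : Run x F h none c c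
  | step (q : F.Q) (c c' : RC) :
      ((doAct x (F.tp q) (F.look x q c).1 c).2 (F.tp q)).1 ≤ h →
      Run x F h (F.look x q c).2 (doAct x (F.tp q) (F.look x q c).1 c) c' → Run x F h (some q) c c'

theorem Run.mono {x : List (Fin a)} {F : Frag a} {h h' : ℕ} (hh : h ≤ h') {o c c'}
    (H : Run x F h o c c') : Run x F h' o c c' := by
  induction H with
  | done c => exact Run.done c
  | step q c c' h1 _ ih => exact Run.step q c c' (h1.trans hh) ih

theorem Run.embed {x : List (Fin a)} {F G : Frag a} {h : ℕ} (φ : F.Q → G.Q) (k : Option G.Q)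
    (h1 : ∀ q, G.tp (φ q) = F.tp q)
    (h2 : ∀ q s g, G.δ (φ q) s g = ((F.δ q s g).1, (F.δ q s g).2.elim k (fun q => some (φ q))))
    {o c c1 c2} (H : Run x F h o c c1) (H' : Run x G h k c1 c2) :
    Run x G h (o.elim k (fun q => some (φ q))) c c2 := by
  induction H with
  | done c => exact H'
  | step q c c' h3 _ ih =>
    have e : G.look x (φ q) c = ((F.look x q c).1, (F.look x q c).2.elim k (fun q => some (φ q))) := by
      simp only [Frag.look, h1, h2]
    refine Run.step (φ q) c c2 ?_ ?_
    · rw [e, h1]; exact h3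
    · rw [e, h1]; exact ih H'

/-- One explicit step on a configuration in normal form. -/
theorem Run.one {x : List (Fin a)} {F : Frag a} {h : ℕ} {q : F.Q} {i : ℕ}
    {C : ℕ → ℕ × (ℕ → Gm)} {r p : ℕ} {T : ℕ → Gm} {g : Gm} {m m' : Move} {o : Option F.Q} {c' : RC}
    (hr : F.tp q = r) (hd : F.δ q (inSym x i) (T p) = ((g, m, m'), o)) (hb : m.act p ≤ h)
    (H : Run x F h o (min (m'.act i) (x.length + 1), update C r (m.act p, update T p g)) c') :
    Run x F h (some q) (i, update C r (p, T)) c' := by
  have e : F.look x q (i, update C r (p, T)) = ((g, m, m'), o) := by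
    simp only [Frag.look, hr, update_self, hd]
  refine Run.step q _ c' ?_ ?_
  · rw [e, hr]; simpa [doAct] using hb
  · rw [e, hr]; simpa [doAct] using H

def seq (F G : Frag a) : Frag a where
  Q := F.Q ⊕ G.Q
  fin := by have := F.fin; have := G.fin; infer_instance
  entry := Sum.inl F.entry
  tp := Sum.elim F.tp G.tp
  δ := Sum.elim
    (fun q s g => ((F.δ q s g).1, (F.δ q s g).2.elim (some (Sum.inr G.entry)) fun q => some (Sum.inl q)))
    (fun q s g => ((G.δ q s g).1, (G.δ q s g).2.elim none fun q => some (Sum.inr q)))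

theorem Run.seq {x : List (Fin a)} {F G : Frag a} {h : ℕ} {c c1 c2}
    (H : Run x F h (some F.entry) c c1) (H' : Run x G h (some G.entry) c1 c2) :
    Run x (seq F G) h (some (seq F G).entry) c c2 :=
  Run.embed (G := P312.seq F G) Sum.inl (some (Sum.inr G.entry)) (fun _ => rfl) (fun _ _ _ => rfl) H
    (Run.embed (G := P312.seq F G) Sum.inr none (fun _ => rfl) (fun _ _ _ => rfl) H' (Run.done _))

def loop (r : ℕ) (F : Frag a) : Frag a where
  Q := Bool ⊕ F.Q
  fin := by have := F.fin; infer_instance
  entry := Sum.inl false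
  tp := Sum.elim (fun _ => r) F.tp
  δ := Sum.elim
    (fun b _ g => cond b ((g, Move.left, Move.stay), g.elim none fun _ => some (Sum.inr F.entry))
      ((g, Move.right, Move.stay), some (Sum.inl true)))
    (fun q s g => ((F.δ q s g).1, (F.δ q s g).2.elim (some (Sum.inl false)) fun q => some (Sum.inr q)))

/-- Move of the input head. -/
def mv (m : Move) : Frag a where
  Q := Unit
  fin := inferInstance
  entry := ()
  tp := fun _ => 0
  δ := fun _ _ g => ((g, Move.stay, m), none)

/-- Switch on the input symbol. -/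
def sw (G : Sy a → Frag a) : Frag a where
  Q := Option (Σ s, (G s).Q)
  fin := by have := fun s => (G s).fin; infer_instance
  entry := none
  tp := fun o => o.elim 0 fun u => (G u.1).tp u.2
  δ := fun o s g => o.elim ((g, Move.stay, Move.stay), some (some ⟨s, (G s).entry⟩))
    fun u => (((G u.1).δ u.2 s g).1, ((G u.1).δ u.2 s g).2.elim none fun q => some (some ⟨u.1, q⟩))

/-- Increment; states: 0 start, 1 carry, 2 back. -/
def inc (r : ℕ) : Frag a where
  Q := Fin 3
  fin := inferInstance
  entry := 0
  tp := fun _ => r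
  δ := fun q _ g =>
    if q = 0 then ((g, Move.right, Move.stay), some 1)
    else if q = 1 then
      (if g = some true then ((some false, Move.right, Move.stay), some 1)
       else ((some g.isSome, Move.left, Move.stay), some 2))
    else if g = none then ((g, Move.stay, Move.stay), none) else ((g, Move.left, Move.stay), some 2)

/-- Decrement; states: 0 start, 1 borrow, 2 back, 3 erase. -/
def dec (r : ℕ) : Frag a where
  Q := Fin 4
  fin := inferInstance
  entry := 0
  tp := fun _ => r
  δ := fun q _ g =>
    if q = 0 then ((g, Move.right, Move.stay), some 1)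
    else if q = 1 then
      (if g = some false then ((some true, Move.right, Move.stay), some 1)
       else if g = none then ((none, Move.left, Move.stay), some 3)
       else ((some false, Move.left, Move.stay), some 2))
    else if q = 3 then ((none, Move.left, Move.stay), some 2)
    else if g = none then ((g, Move.stay, Move.stay), none) else ((g, Move.left, Move.stay), some 2)

/-- Bijective binary digits. -/
def dg : ℕ → ℕ → Gm
  | n, 0 => if n = 0 then none else some (decide (n % 2 = 0))
  | n, i + 1 => dg ((n - 1) / 2) i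

theorem dg_zero : ∀ i, dg 0 i = none
  | 0 => rfl
  | i + 1 => by simpa [dg] using dg_zero i

def tapeOf (n : ℕ) : ℕ → Gm
  | 0 => none
  | i + 1 => dg n i

theorem back_run {x : List (Fin a)} {F : Frag a} {h : ℕ} {q : F.Q} {r i : ℕ} (hi : i ≤ x.length + 1)
    (hr : F.tp q = r)
    (hd : ∀ s g, F.δ q s g =
      if g = none then ((g, Move.stay, Move.stay), none) else ((g, Move.left, Move.stay), some q))
    (C : ℕ → ℕ × (ℕ → Gm)) (T : ℕ → Gm) (h0 : T 0 = none) :
    ∀ p, p ≤ h → (∀ j, 1 ≤ j → j ≤ p → T j ≠ none) →
      Run x F h (some q) (i, update C r (p, T)) (i, update C r (0, T))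
  | 0, _, _ => by
    refine Run.one hr (by rw [hd, if_pos h0]) (Nat.zero_le _) ?_
    simp only [Move.act, min_eq_left hi, update_eq_self]
    exact Run.done _
  | p + 1, hp, hT => by
    refine Run.one hr (by rw [hd, if_neg (hT _ (by omega) le_rfl)]) (by simp [Move.act]; omega) ?_
    simp only [Move.act, min_eq_left hi, update_eq_self, Nat.add_sub_cancel]
    exact back_run hi hr hd C T h0 p (by omega) fun j h1 h2 => hT j h1 (by omega)

theorem carry_run {x : List (Fin a)} {h r i : ℕ} (hi : i ≤ x.length + 1)
    (C : ℕ → ℕ × (ℕ → Gm)) :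
    ∀ (e n p : ℕ) (T T' : ℕ → Gm), n < 2 ^ e → p + 1 + e ≤ h → T 0 = none →
      (∀ j, 1 ≤ j → j ≤ p → T j ≠ none) → (∀ j, T (p + 1 + j) = dg n j) →
      (∀ j, j ≤ p → T' j = T j) → (∀ j, T' (p + 1 + j) = dg (n + 1) j) →
      Run x (inc r) h (some (1 : Fin 3)) (i, update C r (p + 1, T)) (i, update C r (0, T')) := by
  intro e
  induction e with
  | zero =>
    intro n p T T' hn hp h0 h1 h2 h3 h4
    obtain rfl : n = 0 := by omega
    have e0 : T (p + 1) = none := h2 0
    refine Run.one (g := some false) (m := Move.left) (m' := Move.stay) (o := some (2 : Fin 3)) rfl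
      (by rw [e0]; rfl) (by simp [Move.act]; omega) ?_
    simp only [Move.act, min_eq_left hi, Nat.add_sub_cancel]
    have e1 : update T (p + 1) (some false) = T' := by
      funext j
      rcases lt_trichotomy j (p + 1) with hj | rfl | hj
      · rw [update_of_ne (by omega), h3 j (by omega)]
      · rw [update_self]; exact (h4 0).symm
      · obtain ⟨k, rfl⟩ : ∃ k, j = p + 1 + (k + 1) := ⟨j - p - 2, by omega⟩
        rw [update_of_ne (by omega), h2, h4]; simp [dg]
    rw [e1]
    exact back_run hi rfl (fun _ _ => rfl) C T' (by rw [h3 0 (by omega), h0]) p (by omega)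
      fun j a1 a2 => by rw [h3 j a2]; exact h1 j a1 a2
  | succ e ih =>
    intro n p T T' hn hp h0 h1 h2 h3 h4
    have e0 : T (p + 1) = dg n 0 := h2 0
    by_cases hc : n ≠ 0 ∧ n % 2 = 0
    · have e2 : T (p + 1) = some true := by rw [e0]; simp [dg, hc.1, hc.2]
      refine Run.one (g := some false) (m := Move.right) (m' := Move.stay) (o := some (1 : Fin 3)) rfl
        (by rw [e2]; rfl) (by simp [Move.act]; omega) ?_
      simp only [Move.act, min_eq_left hi]
      refine ih ((n - 1) / 2) (p + 1) _ T' (by omega) (by omega) (by rw [update_of_ne (by omega), h0])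
        (fun j a1 a2 => ?_) (fun j => ?_) (fun j a1 => ?_) (fun j => ?_)
      · rcases eq_or_ne j (p + 1) with rfl | hj
        · simp
        · rw [update_of_ne hj]; exact h1 j a1 (by omega)
      · rw [update_of_ne (by omega), show p + 1 + 1 + j = p + 1 + (j + 1) by omega, h2]; rfl
      · rcases eq_or_ne j (p + 1) with rfl | hj
        · rw [update_self, show T' (p + 1) = dg (n + 1) 0 from h4 0]; simp [dg]; omega
        · rw [update_of_ne hj]; exact h3 j (by omega)
      · rw [show p + 1 + 1 + j = p + 1 + (j + 1) by omega, h4, dg]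
        congr 1; omega
    · have e2 : T (p + 1) ≠ some true := by
        rw [e0]; simp only [dg]; split_ifs with h5 <;> simp; omega
      refine Run.one (g := some (T (p + 1)).isSome) (m := Move.left) (m' := Move.stay)
        (o := some (2 : Fin 3)) rfl (by simp [inc, e2]) (by simp [Move.act]; omega) ?_
      simp only [Move.act, min_eq_left hi, Nat.add_sub_cancel]
      have e1 : update T (p + 1) (some (T (p + 1)).isSome) = T' := by
        funext j
        rcases lt_trichotomy j (p + 1) with hj | rfl | hj
        · rw [update_of_ne (by omega), h3 j (by omega)]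
        · rw [update_self, show T' (p + 1) = dg (n + 1) 0 from h4 0, e0]
          simp only [dg]; split_ifs with h5 h6 <;> simp_all <;> omega
        · obtain ⟨k, rfl⟩ : ∃ k, j = p + 1 + (k + 1) := ⟨j - p - 2, by omega⟩
          rw [update_of_ne (by omega), h2, h4, dg, dg]
          congr 1; omega
      rw [e1]
      exact back_run hi rfl (fun _ _ => rfl) C T' (by rw [h3 0 (by omega), h0]) p (by omega)
        fun j a1 a2 => by rw [h3 j a2]; exact h1 j a1 a2

theorem borrow_run {x : List (Fin a)} {h r i : ℕ} (hi : i ≤ x.length + 1)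
    (C : ℕ → ℕ × (ℕ → Gm)) :
    ∀ (e n p : ℕ) (T T' : ℕ → Gm), n < 2 ^ e → n ≠ 0 → p + 1 + e ≤ h → T 0 = none →
      (∀ j, 1 ≤ j → j ≤ p → T j ≠ none) → (∀ j, T (p + 1 + j) = dg n j) →
      (∀ j, j ≤ p → T' j = T j) → (∀ j, T' (p + 1 + j) = dg (n - 1) j) →
      Run x (dec r) h (some (1 : Fin 4)) (i, update C r (p + 1, T)) (i, update C r (0, T')) := by
  intro e
  induction e with
  | zero => intro n p T T' hn; omega
  | succ e ih =>
    intro n p T T' hn hn0 hp h0 h1 h2 h3 h4
    have e0 : T (p + 1) = dg n 0 := h2 0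
    have hback : Run x (dec r) h (some (2 : Fin 4)) (i, update C r (p, T')) (i, update C r (0, T')) :=
      back_run hi rfl (fun _ _ => rfl) C T' (by rw [h3 0 (by omega), h0]) p (by omega)
        fun j a1 a2 => by rw [h3 j a2]; exact h1 j a1 a2
    by_cases hc : n % 2 = 0
    · have e2 : T (p + 1) = some true := by rw [e0]; simp [dg, hn0, hc]
      refine Run.one (g := some false) (m := Move.left) (m' := Move.stay) (o := some (2 : Fin 4)) rfl
        (by rw [e2]; rfl) (by simp [Move.act]; omega) ?_
      simp only [Move.act, min_eq_left hi, Nat.add_sub_cancel]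
      have e1 : update T (p + 1) (some false) = T' := by
        funext j
        rcases lt_trichotomy j (p + 1) with hj | rfl | hj
        · rw [update_of_ne (by omega), h3 j (by omega)]
        · rw [update_self, show T' (p + 1) = dg (n - 1) 0 from h4 0]
          simp only [dg]; rw [if_neg (by omega)]; simp; omega
        · obtain ⟨k, rfl⟩ : ∃ k, j = p + 1 + (k + 1) := ⟨j - p - 2, by omega⟩
          rw [update_of_ne (by omega), h2, h4, dg, dg]
          congr 1; omega
      rw [e1]; exact hback
    · have e2 : T (p + 1) = some false := by rw [e0]; simp [dg, hn0, hc]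
      refine Run.one (g := some true) (m := Move.right) (m' := Move.stay) (o := some (1 : Fin 4)) rfl
        (by rw [e2]; rfl) (by simp [Move.act]; omega) ?_
      simp only [Move.act, min_eq_left hi]
      by_cases h5 : n = 1
      · subst h5
        have e3 : update T (p + 1) (some true) (p + 1 + 1) = none := by
          rw [update_of_ne (by omega), h2]; rfl
        refine Run.one (g := none) (m := Move.left) (m' := Move.stay) (o := some (3 : Fin 4)) rfl
          (by rw [e3]; rfl) (by simp [Move.act]; omega) ?_
        simp only [Move.act, min_eq_left hi, Nat.add_sub_cancel]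
        refine Run.one (g := none) (m := Move.left) (m' := Move.stay) (o := some (2 : Fin 4)) rfl
          rfl (by simp [Move.act]; omega) ?_
        simp only [Move.act, min_eq_left hi, Nat.add_sub_cancel]
        have e1 : update (update (update T (p + 1) (some true)) (p + 1 + 1) none) (p + 1) none = T' := by
          funext j
          rcases lt_trichotomy j (p + 1) with hj | rfl | hj
          · rw [update_of_ne (by omega), update_of_ne (by omega), update_of_ne (by omega), h3 j (by omega)]
          · rw [update_self]; exact (h4 0).symm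
          · obtain ⟨k, rfl⟩ : ∃ k, j = p + 1 + (k + 1) := ⟨j - p - 2, by omega⟩
            rw [update_of_ne (by omega), h4, dg_zero]
            rcases eq_or_ne k 0 with rfl | hk
            · simp
            · rw [update_of_ne (by omega), update_of_ne (by omega), h2, dg]; exact dg_zero _
        rw [e1]; exact hback
      · refine ih ((n - 1) / 2) (p + 1) _ T' (by omega) (by omega) (by omega)
          (by rw [update_of_ne (by omega), h0])
          (fun j a1 a2 => ?_) (fun j => ?_) (fun j a1 => ?_) (fun j => ?_)
        · rcases eq_or_ne j (p + 1) with rfl | hj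
          · simp
          · rw [update_of_ne hj]; exact h1 j a1 (by omega)
        · rw [update_of_ne (by omega), show p + 1 + 1 + j = p + 1 + (j + 1) by omega, h2]; rfl
        · rcases eq_or_ne j (p + 1) with rfl | hj
          · rw [update_self, show T' (p + 1) = dg (n - 1) 0 from h4 0]
            simp only [dg]; rw [if_neg (by omega)]; simp; omega
          · rw [update_of_ne hj]; exact h3 j (by omega)
        · rw [show p + 1 + 1 + j = p + 1 + (j + 1) by omega, h4, dg]
          congr 1; omega

/-- Register view. -/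
def enc (i : ℕ) (σ : ℕ → ℕ) : RC := (i, fun r => (0, tapeOf (σ r)))

/-- Register-level runs with values bounded by `B`. -/
def R (x : List (Fin a)) (F : Frag a) (B : ℕ) (i : ℕ) (σ : ℕ → ℕ) (i' : ℕ) (σ' : ℕ → ℕ) : Prop :=
  Run x F (B.size + 1) (some F.entry) (enc i σ) (enc i' σ')

theorem enc_eq (i : ℕ) (σ : ℕ → ℕ) (r : ℕ) :
    enc i σ = (i, update (enc i σ).2 r (0, tapeOf (σ r))) := by
  simp [enc]

theorem enc_upd (i : ℕ) (σ : ℕ → ℕ) (r v : ℕ) :
    enc i (update σ r v) = (i, update (enc i σ).2 r (0, tapeOf v)) := by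
  simp only [enc, Prod.mk.injEq, true_and]
  funext r'
  rcases eq_or_ne r' r with rfl | h
  · simp
  · simp [update_of_ne h]

variable {x : List (Fin a)} {B i : ℕ} {σ : ℕ → ℕ}

theorem R.mono {F : Frag a} {B' i' σ'} (H : R x F B i σ i' σ') (h : B ≤ B') : R x F B' i σ i' σ' :=
  Run.mono (Nat.succ_le_succ (Nat.size_le_size h)) H

theorem R.seq {F G : Frag a} {i1 σ1 i2 σ2} (H : R x F B i σ i1 σ1) (H' : R x G B i1 σ1 i2 σ2) :
    R x (seq F G) B i σ i2 σ2 := Run.seq H H'

theorem R.inc (hi : i ≤ x.length + 1) (r : ℕ) (hB : σ r ≤ B) :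
    R x (inc r) B i σ i (update σ r (σ r + 1)) := by
  unfold R
  rw [enc_upd, enc_eq i σ r]
  refine Run.one (g := none) (m := Move.right) (m' := Move.stay) (o := some (1 : Fin 3)) rfl rfl
    (by simp [Move.act]) ?_
  simp only [Move.act, min_eq_left hi, update_idem]
  rw [show update (tapeOf (σ r)) 0 none = tapeOf (σ r) from update_eq_self 0 (tapeOf (σ r))]
  exact carry_run hi _ B.size (σ r) 0 _ _ (hB.trans_lt (Nat.lt_size_self B)) (by omega) rfl
    (fun j _ _ => by omega) (fun j => by rw [add_comm]; rfl)
    (fun j hj => by obtain rfl : j = 0 := (by omega); rfl)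
    (fun j => by rw [show 0 + 1 + j = j + 1 by omega]; rfl)

theorem R.dec (hi : i ≤ x.length + 1) (r : ℕ) (hB : σ r ≤ B) (h0 : σ r ≠ 0) :
    R x (dec r) B i σ i (update σ r (σ r - 1)) := by
  unfold R
  rw [enc_upd, enc_eq i σ r]
  refine Run.one (g := none) (m := Move.right) (m' := Move.stay) (o := some (1 : Fin 4)) rfl rfl
    (by simp [Move.act]) ?_
  simp only [Move.act, min_eq_left hi, update_idem]
  rw [show update (tapeOf (σ r)) 0 none = tapeOf (σ r) from update_eq_self 0 (tapeOf (σ r))]
  exact borrow_run hi _ B.size (σ r) 0 _ _ (hB.trans_lt (Nat.lt_size_self B)) h0 (by omega) rfl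
    (fun j _ _ => by omega) (fun j => by rw [add_comm]; rfl)
    (fun j hj => by obtain rfl : j = 0 := (by omega); rfl) (fun j => by rw [add_comm]; rfl)

theorem R.mv (m : Move) : R x (mv m) B i σ (min (m.act i) (x.length + 1)) σ := by
  unfold R
  rw [enc_eq i σ 0]
  refine Run.one (g := none) (m := Move.stay) (m' := m) (o := none) rfl rfl (by simp [Move.act]) ?_
  rw [show update (tapeOf (σ 0)) 0 none = tapeOf (σ 0) from update_eq_self 0 (tapeOf (σ 0)),
    enc_eq (min (m.act i) (x.length + 1)) σ 0]
  exact Run.done _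

theorem R.sw (hi : i ≤ x.length + 1) {G : Sy a → Frag a} {i' σ'}
    (H : R x (G (inSym x i)) B i σ i' σ') : R x (sw G) B i σ i' σ' := by
  unfold R
  rw [enc_eq i σ 0]
  refine Run.one (g := none) (m := Move.stay) (m' := Move.stay)
    (o := some (some ⟨inSym x i, (G _).entry⟩)) rfl rfl (by simp [Move.act]) ?_
  simp only [Move.act, min_eq_left hi]
  rw [show update (tapeOf (σ 0)) 0 none = tapeOf (σ 0) from update_eq_self 0 (tapeOf (σ 0)),
    ← enc_eq _ σ 0]
  exact Run.embed (G := P312.sw G) (fun q => some ⟨inSym x i, q⟩) none (fun _ => rfl)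
    (fun _ _ _ => rfl) H (Run.done _)

theorem loop_test (hi : i ≤ x.length + 1) {r : ℕ} {F : Frag a} {c' : RC}
    (H : Run x (loop r F) (B.size + 1)
      (if σ r = 0 then none else some (Sum.inr F.entry)) (enc i σ) c') :
    Run x (loop r F) (B.size + 1) (some (Sum.inl false)) (enc i σ) c' := by
  rw [enc_eq i σ r]
  refine Run.one (g := none) (m := Move.right) (m' := Move.stay) (o := some (Sum.inl true)) rfl rfl
    (by simp [Move.act]) ?_
  simp only [Move.act, min_eq_left hi]
  rw [show update (tapeOf (σ r)) 0 none = tapeOf (σ r) from update_eq_self 0 (tapeOf (σ r))]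
  refine Run.one (g := tapeOf (σ r) 1) (m := Move.left) (m' := Move.stay)
    (o := if σ r = 0 then none else some (Sum.inr F.entry)) rfl ?_ (by simp [Move.act]) ?_
  · by_cases h : σ r = 0 <;> simp [loop, tapeOf, dg, h]
  · simp only [Move.act, min_eq_left hi, update_eq_self]
    rw [show 0 + 1 - 1 = 0 from rfl, ← enc_eq]
    exact H

theorem R.loop0 (hi : i ≤ x.length + 1) {r : ℕ} (F : Frag a) (h : σ r = 0) :
    R x (loop r F) B i σ i σ := by
  refine loop_test hi ?_
  rw [if_pos h]; exact Run.done _

theorem R.loopS (hi : i ≤ x.length + 1) {r : ℕ} {F : Frag a} (h : σ r ≠ 0) {i1 σ1 i2 σ2}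
    (H : R x F B i σ i1 σ1) (H' : R x (loop r F) B i1 σ1 i2 σ2) : R x (loop r F) B i σ i2 σ2 := by
  refine loop_test hi ?_
  rw [if_neg h]
  exact Run.embed (G := P312.loop r F) Sum.inr (some (Sum.inl false)) (fun _ => rfl)
    (fun _ _ _ => rfl) H H'

theorem R.loopN {r : ℕ} {F : Frag a} (I : ℕ → ℕ) (S : ℕ → ℕ → ℕ) (n : ℕ)
    (hI : ∀ k, I k ≤ x.length + 1) (h0 : S n r = 0)
    (hs : ∀ k < n, S k r ≠ 0 ∧ R x F B (I k) (S k) (I (k + 1)) (S (k + 1))) :
    R x (loop r F) B (I 0) (S 0) (I n) (S n) := by
  have : ∀ j ≤ n, R x (loop r F) B (I (n - j)) (S (n - j)) (I n) (S n) := by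
    intro j
    induction j with
    | zero => intro _; exact R.loop0 (hI _) F h0
    | succ j ih =>
      intro hj
      have h1 := hs (n - (j + 1)) (by omega)
      rw [show n - (j + 1) + 1 = n - j by omega] at h1
      exact R.loopS (hI _) h1.1 h1.2 (ih (by omega))
  simpa using this n le_rfl

end Vale.Agent.P312
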