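import Vale.Agent.P312.CF

/-! Typed linear-space functions on binary naturals, with `fun_prop` support. -/

namespace Vale.Agent.P312

open Function

/-- Representation of a type by finitely many counters and compatibility with the input. -/
class Ctx (a : ℕ) (α : Type) where
  ι : Type
  fin : Fintype ι
  enc : α → ι → ℕ
  ok : α → List (Fin a) → Prop

attribute [instance] Ctx.fin

variable {a : ℕ}

instance ctxNat : Ctx a ℕ := ⟨Unit, inferInstance, fun n _ => n, fun _ _ => True⟩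

open Classical in
noncomputable instance ctxProp : Ctx a Prop :=
  ⟨Unit, inferInstance, fun P _ => if P then 1 else 0, fun _ _ => True⟩

instance ctxInp : Ctx a (List (Fin a)) := ⟨Empty, inferInstance, fun _ i => i.elim, fun x z => x = z⟩

instance ctxProd {α β : Type} [Ctx a α] [Ctx a β] : Ctx a (α × β) :=
  ⟨Ctx.ι a α ⊕ Ctx.ι a β, inferInstance, fun x => Sum.elim (Ctx.enc x.1) (Ctx.enc x.2),
    fun x z => Ctx.ok x.1 z ∧ Ctx.ok x.2 z⟩

class Pure (a : ℕ) (β : Type) [Ctx a β] : Prop where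
  ok : ∀ (b : β) (z : List (Fin a)), Ctx.ok b z

instance : Pure a ℕ := ⟨fun _ _ => trivial⟩
instance : Pure a Prop := ⟨fun _ _ => trivial⟩
instance {α β : Type} [Ctx a α] [Ctx a β] [Pure a α] [Pure a β] : Pure a (α × β) :=
  ⟨fun b z => ⟨Pure.ok b.1 z, Pure.ok b.2 z⟩⟩

abbrev Om (a : ℕ) (α : Type) [Ctx a α] := {p : α × List (Fin a) // Ctx.ok p.1 p.2}

def CFt (a : ℕ) {α : Type} [Ctx a α] (f : α → ℕ) : Prop :=
  CF (fun ω : Om a α => ω.1.2) (fun ω => Ctx.enc (a := a) ω.1.1) fun ω => f ω.1.1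

def PBt (a : ℕ) {α : Type} [Ctx a α] (f : α → ℕ) : Prop :=
  PB (szc (fun ω : Om a α => ω.1.2) fun ω => Ctx.enc (a := a) ω.1.1) fun ω => f ω.1.1

@[fun_prop]
def LS (a : ℕ) {α β : Type} [Ctx a α] [Ctx a β] (f : α → β) : Prop :=
  (∀ u (z : List (Fin a)), Ctx.ok u z → Ctx.ok (f u) z) ∧
    ∀ j : Ctx.ι a β, CFt a fun u => Ctx.enc (f u) j

namespace LS

variable {α β γ : Type} [Ctx a α] [Ctx a β] [Ctx a γ]

theorem nat_iff {f : α → ℕ} : LS a f ↔ CFt a f :=
  ⟨fun h => h.2 (), fun h => ⟨fun _ _ _ => trivial, fun _ => h⟩⟩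

theorem pb {f : α → ℕ} (h : LS a f) : PBt a f := (nat_iff.1 h).1

@[fun_prop] theorem id' : LS a fun u : α => u := ⟨fun _ _ h => h, fun j => CF.proj j⟩

@[fun_prop] theorem const [Pure a β] (b : β) : LS a fun _ : α => b :=
  ⟨fun _ z _ => Pure.ok b z, fun _ => CF.const _⟩

@[fun_prop] theorem comp {f : β → γ} {g : α → β} (hf : LS a f) (hg : LS a g) :
    LS a fun u => f (g u) :=
  ⟨fun u z h => hf.1 _ z (hg.1 u z h), fun j =>
    ((hf.2 j).pull fun ω : Om a α => (⟨(g ω.1.1, ω.1.2), hg.1 _ _ ω.2⟩ : Om a β)).subst hg.2⟩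

@[fun_prop] theorem pair {f : α → β} {g : α → γ} (hf : LS a f) (hg : LS a g) :
    LS a fun u => (f u, g u) :=
  ⟨fun u z h => ⟨hf.1 u z h, hg.1 u z h⟩, fun j => by
    cases j with
    | inl j => exact hf.2 j
    | inr j => exact hg.2 j⟩

@[fun_prop] theorem fst {f : α → β × γ} (hf : LS a f) : LS a fun u => (f u).1 :=
  ⟨fun u z h => (hf.1 u z h).1, fun j => hf.2 (Sum.inl j)⟩

@[fun_prop] theorem snd {f : α → β × γ} (hf : LS a f) : LS a fun u => (f u).2 :=
  ⟨fun u z h => (hf.1 u z h).2, fun j => hf.2 (Sum.inr j)⟩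

theorem congr {f g : α → β} (hf : LS a f) (h : ∀ u, f u = g u) : LS a g :=
  (funext h : f = g) ▸ hf

theorem iff {P Q : α → Prop} (hf : LS a P) (h : ∀ u, P u ↔ Q u) : LS a Q :=
  hf.congr fun u => propext (h u)

variable {f g y : α → ℕ}

theorem succ (hf : LS a f) : LS a fun u => f u + 1 := nat_iff.2 (CF.succ (nat_iff.1 hf))

@[fun_prop] theorem letter {x : α → List (Fin a)} (hx : LS a x) (hf : LS a f) :
    LS a fun u => letter (x u) (f u) := by
  refine nat_iff.2 ?_
  have := CF.letter (nat_iff.1 hf)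
  have e : (fun ω : Om a α => P312.letter ω.1.2 (f ω.1.1)) =
      fun ω : Om a α => P312.letter (x ω.1.1) (f ω.1.1) := by
    funext ω
    rw [show x ω.1.1 = ω.1.2 from hx.1 _ _ ω.2]
  rw [e] at this
  exact this

theorem natRec' (hy : LS a y) (G : α → ℕ → ℕ) (h0 : LS a fun u => G u 0)
    (H : α × ℕ × ℕ → ℕ) (hH : LS a H) (hG : ∀ u n, G u (n + 1) = H (u, n, G u n))
    (Bd : Om a α → ℕ)
    (hBd : PB (szc (fun ω : Om a α => ω.1.2) fun ω => Ctx.enc (a := a) ω.1.1) Bd)
    (hb : ∀ (ω : Om a α) n, n ≤ y ω.1.1 → G ω.1.1 n ≤ Bd ω) :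
    LS a fun u => G u (y u) := by
  refine nat_iff.2 (CF.natRec (nat_iff.1 hy) (fun ω => G ω.1.1) (nat_iff.1 h0)
    (fun v => H (v.1.1.1, v.2)) ?_ (fun ω n => hG _ n) _ hBd hb)
  refine ((nat_iff.1 hH).pull fun v : Om a α × ℕ × ℕ =>
    (⟨((v.1.1.1, v.2), v.1.1.2), v.1.2, trivial, trivial⟩ : Om a (α × ℕ × ℕ))).subst ?_
  rintro (j | j | j)
  · exact CF.proj (some (some j))
  · exact CF.proj (some none)
  · exact CF.proj none

theorem natRec (hy : LS a y) (G : α → ℕ → ℕ) (h0 : LS a fun u => G u 0)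
    (H : α × ℕ × ℕ → ℕ) (hH : LS a H) (hG : ∀ u n, G u (n + 1) = H (u, n, G u n))
    (Bd : α → ℕ) (hBd : PBt a Bd) (hb : ∀ u n, n ≤ y u → G u n ≤ Bd u) :
    LS a fun u => G u (y u) := natRec' hy G h0 H hH hG _ hBd fun _ n => hb _ n

@[fun_prop] theorem add (hf : LS a f) (hg : LS a g) : LS a fun u => f u + g u :=
  natRec hg (fun u n => f u + n) hf (fun v => v.2.2 + 1) (succ (by fun_prop)) (fun _ _ => rfl)
    (fun u => f u + g u) (hf.pb.add hg.pb) fun _ _ h => by omega

@[fun_prop] theorem mul (hf : LS a f) (hg : LS a g) : LS a fun u => f u * g u :=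
  natRec hg (fun u n => f u * n) (const 0) (fun v => v.2.2 + f v.1) (by fun_prop) (fun _ _ => rfl)
    (fun u => f u * g u) (hf.pb.mul hg.pb) fun _ _ h => Nat.mul_le_mul_left _ h

theorem pred (hf : LS a f) : LS a fun u => f u - 1 :=
  natRec hf (fun _ n => n - 1) (const 0) (fun v => v.2.1) (by fun_prop) (fun _ _ => rfl)
    f hf.pb fun _ _ h => by omega

@[fun_prop] theorem sub (hf : LS a f) (hg : LS a g) : LS a fun u => f u - g u :=
  natRec hg (fun u n => f u - n) hf (fun v => v.2.2 - 1) (pred (by fun_prop)) (fun _ _ => rfl)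
    f hf.pb fun _ _ _ => by omega

@[fun_prop] theorem pow (hf : LS a f) (k : ℕ) : LS a fun u => f u ^ k := by
  induction k with
  | zero => simpa using const 1
  | succ k ih => simpa [pow_succ] using ih.mul hf

@[fun_prop] theorem min (hf : LS a f) (hg : LS a g) : LS a fun u => min (f u) (g u) :=
  (hf.sub (hf.sub hg)).congr fun u => by omega

open Classical in
theorem prop_iff {P : α → Prop} : LS a P ↔ LS a fun u => if P u then 1 else 0 :=
  ⟨fun h => nat_iff.2 (h.2 ()), fun h => ⟨fun _ _ _ => trivial, fun _ => nat_iff.1 h⟩⟩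

variable {P Q : α → Prop}

@[fun_prop] theorem le (hf : LS a f) (hg : LS a g) : LS a fun u => f u ≤ g u :=
  prop_iff.2 (((const 1).sub (hf.sub hg)).congr fun u => by split_ifs <;> omega)

@[fun_prop] theorem not (hP : LS a P) : LS a fun u => ¬ P u :=
  prop_iff.2 (((const 1).sub (prop_iff.1 hP)).congr fun u => by by_cases h : P u <;> simp [h])

@[fun_prop] theorem and (hP : LS a P) (hQ : LS a Q) : LS a fun u => P u ∧ Q u :=
  prop_iff.2 (((prop_iff.1 hP).mul (prop_iff.1 hQ)).congr fun u => by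
    by_cases h : P u <;> by_cases h' : Q u <;> simp [h, h'])

@[fun_prop] theorem or (hP : LS a P) (hQ : LS a Q) : LS a fun u => P u ∨ Q u :=
  (hP.not.and hQ.not).not.iff fun _ => by tauto

theorem imp (hP : LS a P) (hQ : LS a Q) : LS a fun u => P u → Q u :=
  (hP.not.or hQ).iff fun _ => by tauto

@[fun_prop] theorem lt (hf : LS a f) (hg : LS a g) : LS a fun u => f u < g u :=
  (le hg hf).not.iff fun _ => not_le

@[fun_prop] theorem eq (hf : LS a f) (hg : LS a g) : LS a fun u => f u = g u :=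
  ((le hf hg).and (le hg hf)).iff fun _ => le_antisymm_iff.symm

@[fun_prop] theorem ne (hf : LS a f) (hg : LS a g) : LS a fun u => f u ≠ g u := (eq hf hg).not

@[fun_prop] theorem ite {i : ∀ u, Decidable (P u)} {F G : α → β} (hP : LS a P) (hF : LS a F)
    (hG : LS a G) : LS a fun u => @_root_.ite _ (P u) (i u) (F u) (G u) := by
  refine ⟨fun u z h => ?_, fun j => ?_⟩
  · dsimp only
    split_ifs
    · exact hF.1 u z h
    · exact hG.1 u z h
  · have h1 := prop_iff.1 hP
    have h2 := nat_iff.2 (hF.2 j)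
    have h3 := nat_iff.2 (hG.2 j)
    refine nat_iff.1 (((h1.mul h2).add (((const 1).sub h1).mul h3)).congr fun u => ?_)
    by_cases h : P u <;> simp [h]

@[fun_prop] theorem sum {F : α → ℕ → ℕ} (hy : LS a y) (hF : LS a fun v : α × ℕ => F v.1 v.2) :
    LS a fun u => ∑ k ∈ Finset.range (y u), F u k := by
  obtain ⟨d, hd⟩ := hF.pb
  refine natRec' hy (fun u n => ∑ k ∈ Finset.range n, F u k) (const 0)
    (fun v => v.2.2 + F v.1 v.2.1) ((snd (snd id')).add (hF.comp (g := fun v : α × ℕ × ℕ =>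
      (v.1, v.2.1)) (by fun_prop))) (fun u n => Finset.sum_range_succ _ n) _
    (PB.mul hy.pb (((PB.refl.add hy.pb).add (PB.const 2)).pow d)) fun ω n hn => ?_
  refine (Finset.sum_le_card_nsmul _ _ _ fun k hk => ?_).trans
    (by rw [Finset.card_range, smul_eq_mul]; exact Nat.mul_le_mul_right _ hn)
  refine (hd ⟨((ω.1.1, k), ω.1.2), ω.2, trivial⟩).trans (Nat.pow_le_pow_left ?_ _)
  have := Finset.mem_range.1 hk
  have e : szc (fun ω : Om a (α × ℕ) => ω.1.2) (fun ω => Ctx.enc (a := a) ω.1.1)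
      ⟨((ω.1.1, k), ω.1.2), ω.2, trivial⟩ =
      ∑ j : Ctx.ι a α ⊕ Unit, Sum.elim (Ctx.enc (a := a) ω.1.1) (fun _ => k) j + ω.1.2.length := rfl
  rw [e, Fintype.sum_sum_type]
  simp only [szc, Sum.elim_inl, Sum.elim_inr, Finset.univ_unique, Finset.sum_singleton]
  omega

end LS

/-- Bounded universal quantifier. -/
def AllB (n : ℕ) (R : ℕ → Prop) : Prop := ∀ k < n, R k

namespace LS

variable {α β γ : Type} [Ctx a α] [Ctx a β] [Ctx a γ] {f g y : α → ℕ}

open Classical in
@[fun_prop] theorem all {R : α → ℕ → Prop} (hy : LS a y) (hR : LS a fun v : α × ℕ => R v.1 v.2) :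
    LS a fun u => AllB (y u) (R u) := by
  have h : LS a fun u => ∑ k ∈ Finset.range (y u), (if R u k then 0 else 1) = 0 :=
    eq (sum (F := fun u k => if R u k then 0 else 1) hy (by fun_prop)) (const 0)
  exact h.iff fun u => by simp [AllB]

@[fun_prop] theorem div (hf : LS a f) (hg : LS a g) : LS a fun u => f u / g u := by
  have h : LS a fun u => ∑ k ∈ Finset.range (f u), if 0 < g u ∧ (k + 1) * g u ≤ f u then 1 else 0 := by
    fun_prop
  refine h.congr fun u => ?_
  rw [← Finset.card_filter]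
  have : (Finset.range (f u)).filter (fun k => 0 < g u ∧ (k + 1) * g u ≤ f u) =
      Finset.range (f u / g u) := by
    ext k
    simp only [Finset.mem_filter, Finset.mem_range]
    rcases Nat.eq_zero_or_pos (g u) with h | h
    · simp [h]
    · rw [← Nat.le_div_iff_mul_le h]
      have := Nat.div_le_self (f u) (g u)
      omega
  rw [this, Finset.card_range]

@[fun_prop] theorem mod (hf : LS a f) (hg : LS a g) : LS a fun u => f u % g u :=
  (hf.sub (hg.mul (hf.div hg))).congr fun _ => (Nat.mod_eq_sub_mul_div).symm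

@[fun_prop] theorem sqrt (hf : LS a f) : LS a fun u => (f u).sqrt := by
  have h : LS a fun u => ∑ k ∈ Finset.range (f u), if (k + 1) * (k + 1) ≤ f u then 1 else 0 := by
    fun_prop
  refine h.congr fun u => ?_
  rw [← Finset.card_filter]
  have : (Finset.range (f u)).filter (fun k => (k + 1) * (k + 1) ≤ f u) =
      Finset.range (f u).sqrt := by
    ext k
    simp only [Finset.mem_filter, Finset.mem_range]
    rw [← Nat.le_sqrt]
    have := Nat.sqrt_le_self (f u)
    omega
  rw [this, Finset.card_range]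

@[fun_prop] theorem prime (hf : LS a f) : LS a fun u => Nat.Prime (f u) := by
  have h : LS a fun u => 2 ≤ f u ∧ AllB (f u) fun m => m < 2 ∨ f u % m ≠ 0 := by fun_prop
  refine h.iff fun u => ?_
  rw [Nat.prime_def_lt']
  refine and_congr_right fun _ => forall_congr' fun m => ?_
  rw [Nat.dvd_iff_mod_eq_zero]
  omega

theorem table (T : ℕ → ℕ) (K : ℕ) (hf : LS a f) : LS a fun u => if f u < K then T (f u) else 0 := by
  induction K with
  | zero => simpa using const 0
  | succ K ih =>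
    have h : LS a fun u => if f u = K then T K else if f u < K then T (f u) else 0 :=
      ite (by fun_prop) (const _) ih
    refine h.congr fun u => ?_
    split_ifs <;> first | rfl | omega | simp_all

end LS

/-- Packing of tuples and truncation. -/
class Pk (β : Type) where
  pk : β → ℕ
  un : ℕ → β
  tr : ℕ → β → β
  bd : ℕ → ℕ
  un_pk : ∀ b, un (pk b) = b
  pk_tr : ∀ M b, pk (tr M b) ≤ bd M

instance : Pk ℕ := ⟨id, id, fun M n => min n M, id, fun _ => rfl, fun _ _ => min_le_right _ _⟩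

instance {β γ : Type} [Pk β] [Pk γ] : Pk (β × γ) where
  pk := fun b => Nat.pair (Pk.pk b.1) (Pk.pk b.2)
  un := fun n => (Pk.un n.unpair.1, Pk.un n.unpair.2)
  tr := fun M b => (Pk.tr M b.1, Pk.tr M b.2)
  bd := fun M => (Pk.bd β M + Pk.bd γ M + 1) ^ 2
  un_pk := fun b => by simp [Pk.un_pk]
  pk_tr := fun M b => by
    refine (Nat.pair_lt_max_add_one_sq _ _).le.trans (Nat.pow_le_pow_left ?_ _)
    have := Pk.pk_tr M b.1
    have := Pk.pk_tr M b.2
    dsimp only
    omega

class PkLS (a : ℕ) (β : Type) [Ctx a β] [Pk β] : Prop where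
  pk : LS a (Pk.pk : β → ℕ)
  un : LS a (Pk.un : ℕ → β)
  tr : LS a fun v : ℕ × β => Pk.tr v.1 v.2
  bd : LS a (Pk.bd β)

instance : PkLS a ℕ :=
  ⟨LS.id', LS.id', (by fun_prop : LS a fun v : ℕ × ℕ => min v.2 v.1), LS.id'⟩

theorem ls_pair : LS a fun v : ℕ × ℕ => Nat.pair v.1 v.2 := by
  unfold Nat.pair; fun_prop

theorem ls_unpair : LS a Nat.unpair := by
  have h : LS a fun n : ℕ => if n - n.sqrt * n.sqrt < n.sqrt then (n - n.sqrt * n.sqrt, n.sqrt)
      else (n.sqrt, n - n.sqrt * n.sqrt - n.sqrt) := by fun_prop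
  exact h

instance {β γ : Type} [Ctx a β] [Ctx a γ] [Pk β] [Pk γ] [PkLS a β] [PkLS a γ] : PkLS a (β × γ) where
  pk := ls_pair.comp ((PkLS.pk.comp (LS.fst LS.id')).pair (PkLS.pk.comp (LS.snd LS.id')))
  un := (PkLS.un.comp ls_unpair.fst).pair (PkLS.un.comp ls_unpair.snd)
  tr := (PkLS.tr.comp (g := fun v : ℕ × β × γ => (v.1, v.2.1)) (by fun_prop)).pair
    (PkLS.tr.comp (g := fun v : ℕ × β × γ => (v.1, v.2.2)) (by fun_prop))
  bd := ((LS.add PkLS.bd PkLS.bd).add (LS.const 1)).pow 2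

/-- Truncated iteration. -/
def itr {β : Type} [Pk β] (M : ℕ) (g : β) (H : ℕ → β → β) : ℕ → β
  | 0 => Pk.tr M g
  | n + 1 => Pk.tr M (H n (itr M g H n))

@[fun_prop] theorem LS.itr {α β : Type} [Ctx a α] [Ctx a β] [Pk β] [PkLS a β] {M y : α → ℕ}
    {g : α → β} {H : α → ℕ → β → β} (hM : LS a M) (hg : LS a g) (hy : LS a y)
    (hH : LS a fun v : α × ℕ × β => H v.1 v.2.1 v.2.2) :
    LS a fun u => itr (M u) (g u) (H u) (y u) := by
  have h1 := PkLS.pk (a := a) (β := β)
  have h2 := PkLS.un (a := a) (β := β)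
  have h3 := PkLS.tr (a := a) (β := β)
  have h : LS a fun u => Pk.pk (P312.itr (M u) (g u) (H u) (y u)) :=
    LS.natRec hy (fun u n => Pk.pk (P312.itr (M u) (g u) (H u) n)) (h1.comp (h3.comp (hM.pair hg)))
      (fun v => Pk.pk (Pk.tr (M v.1) (H v.1 v.2.1 (Pk.un v.2.2))))
      (h1.comp (h3.comp ((hM.comp (LS.fst LS.id')).pair (hH.comp
        (g := fun v : α × ℕ × ℕ => (v.1, v.2.1, Pk.un v.2.2)) (by fun_prop)))))
      (fun u n => by rw [Pk.un_pk]; rfl) _ ((PkLS.bd (a := a) (β := β)).comp hM).pb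
      fun u n _ => by cases n <;> exact Pk.pk_tr _ _
  exact (h2.comp h).congr fun u => Pk.un_pk _

/-- Plain iteration with step index. -/
def fo {S : Type} : ℕ → (ℕ → S → S) → S → S
  | 0, _, s => s
  | n + 1, f, s => f n (fo n f s)

theorem itr_eq {β : Type} [Pk β] (M : ℕ) (g : β) (H : ℕ → β → β) (n : ℕ)
    (h : ∀ k ≤ n, Pk.tr M (fo k H g) = fo k H g) : itr M g H n = fo n H g := by
  induction n with
  | zero => exact h 0 le_rfl
  | succ n ih => rw [itr, ih fun k hk => h k (by omega)]; exact h (n + 1) le_rfl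

theorem itr_nat (M g : ℕ) (H : ℕ → ℕ → ℕ) (n : ℕ) (h : ∀ k ≤ n, fo k H g ≤ M) :
    itr M g H n = fo n H g := itr_eq M g H n fun k hk => min_eq_left (h k hk)

/-- Truncated power. -/
def pw (M b k : ℕ) : ℕ := itr M 1 (fun _ r => r * b) k

@[fun_prop] theorem LS.pw {α : Type} [Ctx a α] {M b k : α → ℕ} (hM : LS a M) (hb : LS a b)
    (hk : LS a k) : LS a fun u => pw (M u) (b u) (k u) := by
  unfold P312.pw; fun_prop

theorem pw_eq_min (M b k : ℕ) : pw M b k = min (b ^ k) M := by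
  induction k with
  | zero => rfl
  | succ k ih =>
    have e : pw M b (k + 1) = min (pw M b k * b) M := rfl
    rw [e, ih, pow_succ]
    rcases le_total (b ^ k) M with h | h
    · rw [min_eq_left h]
    · rw [min_eq_right h]
      rcases Nat.eq_zero_or_pos b with rfl | hb
      · simp
      · rw [min_eq_right (by nlinarith), min_eq_right (by nlinarith)]

theorem pw_eq {M b k : ℕ} (h : b ^ k ≤ M) : pw M b k = b ^ k := by rw [pw_eq_min, min_eq_left h]

theorem LS.toCF {D : ℕ × List (Fin a) → ℕ} (h : LS a D) :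
    CF (fun u : ℕ × List (Fin a) => u.2) (fun u (_ : Unit) => u.1) D := by
  refine ((LS.nat_iff.1 h).pull fun u : ℕ × List (Fin a) =>
    (⟨(u, u.2), trivial, rfl⟩ : Om a (ℕ × List (Fin a)))).subst ?_
  rintro (j | j)
  · exact CF.proj ()
  · exact j.elim

end Vale.Agent.P312
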