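import Vale.Agent.P312.CF

/-! From fragments to machines; unbounded search. -/

namespace Vale.Agent.P312

open Function

variable {a : ℕ}

def stp (r : ℕ) : Frag a where
  Q := Unit
  fin := inferInstance
  entry := ()
  tp := fun _ => r
  δ := fun _ _ g => ((g, Move.right, Move.stay), none)

/-- The machine attached to a fragment; the answer is read on tape `2`. -/
def mach (G : Frag a) (k : ℕ) (hk : ∀ q, G.tp q < k) (h2 : 2 < k) : TMS a where
  k := k
  Q := G.Q ⊕ Option Bool
  Γ := Gm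
  finQ := by have := G.fin; infer_instance
  finΓ := inferInstance
  start := Sum.inl G.entry
  blank := none
  out := Sum.elim (fun _ => none) id
  δ := Sum.elim
    (fun q s g => ((G.δ q s (g ⟨G.tp q, hk q⟩)).2.elim (Sum.inr none) Sum.inl,
      (G.δ q s (g ⟨G.tp q, hk q⟩)).1.2.2,
      fun j => if j.1 = G.tp q then
        ((G.δ q s (g ⟨G.tp q, hk q⟩)).1.1, (G.δ q s (g ⟨G.tp q, hk q⟩)).1.2.1) else (g j, Move.stay)))
    (fun _ _ g => (Sum.inr (some (g ⟨2, h2⟩).isSome), Move.stay, fun j => (g j, Move.stay)))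

variable {G : Frag a} {k : ℕ} {hk : ∀ q, G.tp q < k} {h2 : 2 < k} {x : List (Fin a)}

def conf (hk : ∀ q, G.tp q < k) (h2 : 2 < k) (o : Option G.Q) (c : RC) : CfgS (mach G k hk h2) :=
  ⟨o.elim (Sum.inr none) Sum.inl, c.1, fun j => (c.2 j.1).1, fun j => (c.2 j.1).2⟩

theorem cfgS_ext {M : TMS a} {c c' : CfgS M} (h1 : c.state = c'.state) (h2 : c.ihead = c'.ihead)
    (h3 : c.head = c'.head) (h4 : c.tape = c'.tape) : c = c' := by
  cases c; cases c'; simp_all

theorem step_conf (q : G.Q) (c : RC) : stepS (mach G k hk h2) x (conf hk h2 (some q) c) =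
    conf hk h2 (G.look x q c).2 (doAct x (G.tp q) (G.look x q c).1 c) := by
  rw [stepS, if_pos (by rfl)]
  refine cfgS_ext rfl rfl ?_ ?_
  · funext j
    by_cases h : j.1 = G.tp q
    · simp [conf, mach, doAct, h, Frag.look]
    · simp [conf, mach, doAct, h, Move.act]
  · funext j
    by_cases h : j.1 = G.tp q
    · simp [conf, mach, doAct, h, Frag.look]
    · simp [conf, mach, doAct, h]

theorem run_conf {h : ℕ} {o c c'} (H : Run x G h o c c') (hc : ∀ r, (c.2 r).1 ≤ h) :
    ∃ τ, (stepS (mach G k hk h2) x)^[τ] (conf hk h2 o c) = conf hk h2 none c' ∧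
      ∀ τ' ≤ τ, ∀ j, ((stepS (mach G k hk h2) x)^[τ'] (conf hk h2 o c)).head j ≤ h := by
  induction H with
  | done c =>
    refine ⟨0, rfl, fun τ' h' j => ?_⟩
    obtain rfl : τ' = 0 := by omega
    exact hc _
  | step q c c' h1 _ ih =>
    obtain ⟨τ, h3, h4⟩ := ih fun r => by
      rcases eq_or_ne r (G.tp q) with rfl | hr
      · exact h1
      · simpa [doAct, hr] using hc r
    refine ⟨τ + 1, by rw [iterate_succ_apply, step_conf, h3], fun τ' h' j => ?_⟩
    cases τ' with
    | zero => exact hc _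
    | succ τ' => rw [iterate_succ_apply, step_conf]; exact h4 τ' (by omega) j

theorem exists_mach (F : Frag a) : ∃ M : TMS a, ∀ (x : List (Fin a)) (B : ℕ) (σ : ℕ → ℕ),
    R x F B 0 (fun _ => 0) 0 σ →
    (∃ τ, M.out ((stepS M x)^[τ] (initS M)).state = some (decide (σ 2 ≠ 0))) ∧
      ∀ τ j, ((stepS M x)^[τ] (initS M)).head j ≤ B.size + 1 := by
  have := (seq F (stp 2)).fin
  obtain ⟨k0, hk0⟩ := (Set.finite_range (seq F (stp 2)).tp).bddAbove
  have hk : ∀ q, (seq F (stp 2)).tp q < k0 + 3 := fun q => by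
    have := hk0 ⟨q, rfl⟩; omega
  have h2 : 2 < k0 + 3 := by omega
  refine ⟨mach _ _ hk h2, fun x B σ H => ?_⟩
  have H1 : Run x (stp 2) (B.size + 1) (some ()) (enc 0 σ)
      (0, update (enc 0 σ).2 2 (1, tapeOf (σ 2))) := by
    rw [enc_eq 0 σ 2]
    refine Run.one (g := none) (m := Move.right) (m' := Move.stay) (o := none) rfl rfl
      (by simp [Move.act]) ?_
    rw [show update (tapeOf (σ 2)) 0 none = tapeOf (σ 2) from update_eq_self 0 (tapeOf (σ 2))]
    simp only [Move.act, Nat.zero_min, update_idem]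
    exact Run.done _
  obtain ⟨τ, h3, h4⟩ := run_conf (hk := hk) (h2 := h2) (Run.seq H H1) fun r => Nat.zero_le _
  have e0 : conf hk h2 (some (seq F (stp 2)).entry) (enc 0 fun _ => 0) = initS _ := by
    refine cfgS_ext rfl rfl rfl ?_
    funext j i
    cases i with
    | zero => rfl
    | succ i => exact dg_zero i
  rw [e0] at h3 h4
  set M := mach _ _ hk h2
  have h5 : M.out ((stepS M x)^[τ + 1] (initS M)).state = some (decide (σ 2 ≠ 0)) := by
    rw [iterate_succ_apply', h3, stepS, if_pos (by rfl)]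
    by_cases h : σ 2 = 0 <;> simp [M, mach, conf, tapeOf, dg, h]
  have h6 : ∀ j, ((stepS M x)^[τ + 1] (initS M)).head j ≤ B.size + 1 := fun j => by
    have := h4 τ le_rfl j
    rw [h3] at this
    rw [iterate_succ_apply', h3, stepS, if_pos (by rfl)]
    exact this
  have h7 : ∀ n, (stepS M x)^[τ + 1 + n] (initS M) = (stepS M x)^[τ + 1] (initS M) := by
    intro n
    induction n with
    | zero => rfl
    | succ n ih => rw [← add_assoc, iterate_succ_apply', ih, stepS, if_neg (by rw [h5]; simp)]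
  refine ⟨⟨τ + 1, h5⟩, fun τ' j => ?_⟩
  rcases le_or_gt τ' τ with h | h
  · exact h4 τ' h j
  · obtain ⟨n, rfl⟩ : ∃ n, τ' = τ + 1 + n := ⟨τ' - (τ + 1), by omega⟩
    rw [h7]; exact h6 j

theorem search (D1 D2 : ℕ × List (Fin a) → ℕ)
    (h1 : CF (fun u : ℕ × List (Fin a) => u.2) (fun u (_ : Unit) => u.1) D1)
    (h2 : CF (fun u : ℕ × List (Fin a) => u.2) (fun u (_ : Unit) => u.1) D2) :
    ∃ (M : TMS a) (d : ℕ), ∀ (x : List (Fin a)) (N : ℕ), D1 (N, x) = 0 → ∃ N', D1 (N', x) = 0 ∧
      (∃ τ, M.out ((stepS M x)^[τ] (initS M)).state = some (decide (D2 (N', x) ≠ 0))) ∧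
      ∀ τ j, ((stepS M x)^[τ] (initS M)).head j ≤ ((N + x.length + 2) ^ d).size + 1 := by
  obtain ⟨F1, B1, hB1, g1⟩ := h1.2 (fun _ => 0) 1 3 (by simp) (by simp) (by simp)
  obtain ⟨F2, B2, hB2, g2⟩ := h2.2 (fun _ => 0) 2 3 (by simp) (by simp) (by simp)
  obtain ⟨d, hd⟩ := ((hB1.add hB2).add h1.1).add PB.refl
  obtain ⟨M, hM⟩ := exists_mach (seq F1 (seq (loop 1 (seq (clear 1) (seq (inc 0) F1))) F2))
  refine ⟨M, d, fun x N hN => ?_⟩
  classical
  have hex : ∃ n, D1 (n, x) = 0 := ⟨N, hN⟩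
  have hle : Nat.find hex ≤ N := Nat.find_min' hex hN
  have hb : ∀ n ≤ Nat.find hex, B1 (n, x) + B2 (n, x) + D1 (n, x) + n ≤ (N + x.length + 2) ^ d := by
    intro n hn
    have := hd (n, x)
    simp only [szc, Finset.univ_unique, Finset.sum_singleton] at this
    have h3 : (n + x.length + 2) ^ d ≤ (N + x.length + 2) ^ d := Nat.pow_le_pow_left (by omega) _
    omega
  have L := R.loopN (x := x) (B := (N + x.length + 2) ^ d) (r := 1)
    (F := seq (clear 1) (seq (inc 0) F1)) (fun _ => 0)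
    (fun k => update (update (fun _ => 0) 0 k) 1 (D1 (k, x))) (Nat.find hex) (fun _ => Nat.zero_le _)
    (by simpa using Nat.find_spec hex) fun k hk => ⟨by simpa using Nat.find_min hex hk, by
      have c1 := hb k hk.le
      have c2 := hb (k + 1) hk
      refine ((R.clear (Nat.zero_le _) 1 (by simp; omega)).seq ((R.inc (Nat.zero_le _) 0
        (by simp; omega)).seq ((g1 (k + 1, x) _ (by simp) (by simp) fun r hr => ?_).mono
          (by omega)))).cast ?_
      · rw [update_of_ne (by omega), update_of_ne (by omega), update_of_ne (by omega),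
          update_of_ne (by omega)]
      · funext r; simp only [update_apply]; split_ifs <;> first | rfl | omega | simp_all⟩
  have c0 := hb 0 (Nat.zero_le _)
  have c1 := hb _ le_rfl
  have H := ((g1 (0, x) (fun _ => 0) (by simp) rfl fun _ _ => rfl).mono
    (B' := (N + x.length + 2) ^ d) (by omega)).seq ((L.cast' (by simp)).seq
      ((g2 (Nat.find hex, x) _ (by simp) (by simp) fun r hr => by
        rw [update_of_ne (by omega), update_of_ne (by omega)]).mono (by omega)))
  have := hM x _ _ H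
  simp only [update_self] at this
  exact ⟨_, Nat.find_spec hex, this⟩

end Vale.Agent.P312
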