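import Vale.Agent.P312.Sim
import Vale.Agent.P312.Top

/-! Soundness, completeness and choice of parameters. -/

namespace Vale.Agent.P312

open Finset Function

variable {a : ℕ}

namespace TM1

variable {M : TM1 a} {sh b m T : ℕ}

theorem gstep_prog (c0 : Cfg1 M) (i τ k : ℕ) : ∃ τ', (gstep sh b m i)^[k] ((step1 M)^[τ] c0) =
    (step1 M)^[τ'] c0 := by
  induction k with
  | zero => exact ⟨τ, rfl⟩
  | succ k ih =>
    obtain ⟨τ', h⟩ := ih
    rw [iterate_succ_apply', h, gstep]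
    split_ifs
    · exact ⟨τ' + 1, (iterate_succ_apply' _ _ _).symm⟩
    · exact ⟨τ', rfl⟩

theorem gsegs_prog (c0 : Cfg1 M) (s : ℕ) : ∃ τ, (gseg sh b m T)^[s] c0 = (step1 M)^[τ] c0 := by
  induction s with
  | zero => exact ⟨0, rfl⟩
  | succ s ih =>
    obtain ⟨τ, h⟩ := ih
    rw [iterate_succ_apply', h, gseg]
    exact gstep_prog _ _ _ _

theorem halt_fix {c0 : Cfg1 M} {t : ℕ} (h : M.out ((step1 M)^[t] c0).state ≠ none) {τ : ℕ}
    (hτ : t ≤ τ) : (step1 M)^[τ] c0 = (step1 M)^[t] c0 := by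
  obtain ⟨k, rfl⟩ := Nat.exists_eq_add_of_le hτ
  rw [add_comm, iterate_add_apply, iterate_fixed (by rw [step1, if_neg h])]

theorem head_step (c : Cfg1 M) : |(step1 M c).head - c.head| ≤ 1 := by
  unfold step1
  split_ifs
  · have := Move.code_eq (M.δ c.state (c.tape c.head)).2.2
    have := Move.code_le (M.δ c.state (c.tape c.head)).2.2
    dsimp only
    rw [abs_le]; omega
  · simp

theorem head_le (x : List (Fin a)) (τ : ℕ) : |((step1 M)^[τ] (init1 M x)).head| ≤ τ := by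
  induction τ with
  | zero => simp [init1]
  | succ τ ih =>
    have := head_step ((step1 M)^[τ] (init1 M x))
    rw [iterate_succ_apply']
    rw [abs_le] at *
    omega

/-- Number of block changes before time `τ`. -/
def cross (c0 : Cfg1 M) (sh b τ : ℕ) : ℕ :=
  ((range τ).filter fun s => hdp sh ((step1 M)^[s] c0) / b ≠ hdp sh ((step1 M)^[s + 1] c0) / b).card

theorem cross_mono (c0 : Cfg1 M) (sh b : ℕ) : Monotone (cross c0 sh b) := fun _ _ h =>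
  card_le_card (filter_subset_filter _ (range_mono h))

theorem cross_lt (c0 : Cfg1 M) {τ τ' : ℕ} (h : τ ≤ τ')
    (hne : hdp sh ((step1 M)^[τ] c0) / b ≠ hdp sh ((step1 M)^[τ'] c0) / b) :
    cross c0 sh b τ < cross c0 sh b τ' := by
  induction τ', h using Nat.le_induction with
  | base => exact absurd rfl hne
  | succ k hk ih =>
    by_cases h1 : hdp sh ((step1 M)^[k] c0) / b = hdp sh ((step1 M)^[k + 1] c0) / b
    · exact (ih (h1 ▸ hne)).trans_le (cross_mono _ _ _ (Nat.le_succ k))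
    · refine (cross_mono _ _ _ hk).trans_lt ?_
      rw [cross, cross, range_add_one, filter_insert, if_pos h1, card_insert_of_notMem
        fun h2 => notMem_range_self (mem_filter.1 h2).1]
      omega

theorem complete {c0 : Cfg1 M} {t K : ℕ}
    (hr : ∀ τ, 1 ≤ hdp sh ((step1 M)^[τ] c0) ∧ hdp sh ((step1 M)^[τ] c0) + 1 < m * b)
    (hT : t ≤ T) (hK : cross c0 sh b t < K) :
    ∃ τ, t ≤ τ ∧ (gseg sh b m T)^[K] c0 = (step1 M)^[τ] c0 := by
  have h1 : ∀ τ k, ∃ τ', (gstep sh b m (hdp sh ((step1 M)^[τ] c0) / b))^[k] ((step1 M)^[τ] c0) =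
      (step1 M)^[τ'] c0 ∧ τ ≤ τ' ∧ (τ' = τ + k ∨ cross c0 sh b τ < cross c0 sh b τ') := by
    intro τ k
    induction k with
    | zero => exact ⟨τ, rfl, le_rfl, Or.inl rfl⟩
    | succ k ih =>
      obtain ⟨τ', h, h2, h3⟩ := ih
      rw [iterate_succ_apply', h, gstep]
      split_ifs with h4
      · refine ⟨τ' + 1, (iterate_succ_apply' _ _ _).symm, by omega, h3.imp (by omega) fun h5 => ?_⟩
        exact h5.trans_le (cross_mono _ _ _ (Nat.le_succ _))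
      · exact ⟨τ', rfl, h2, Or.inr (cross_lt _ h2 fun h5 => h4 ⟨(hr _).1, (hr _).2, h5.symm⟩)⟩
  have h2 : ∀ s, ∃ τ, (gseg sh b m T)^[s] c0 = (step1 M)^[τ] c0 ∧ (t ≤ τ ∨ s ≤ cross c0 sh b τ) := by
    intro s
    induction s with
    | zero => exact ⟨0, rfl, Or.inr (Nat.zero_le _)⟩
    | succ s ih =>
      obtain ⟨τ, h, h3⟩ := ih
      obtain ⟨τ', h4, h5, h6⟩ := h1 τ T
      exact ⟨τ', by rw [iterate_succ_apply', h, gseg, h4], by omega⟩
  obtain ⟨τ, h, h3⟩ := h2 K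
  refine ⟨τ, ?_, h⟩
  by_contra h4
  have := cross_mono c0 sh b (not_le.1 h4).le
  omega

theorem exists_offset (x : List (Fin a)) {t b : ℕ} (hb : 0 < b) :
    ∃ o < b, cross (init1 M x) (t + 1 + o) b t * b ≤ t := by
  have h : ∑ o ∈ range b, cross (init1 M x) (t + 1 + o) b t ≤ t := by
    simp only [cross, card_filter]
    rw [sum_comm]
    refine (sum_le_card_nsmul _ _ 1 fun s hs => ?_).trans (by simp)
    rw [← card_filter]
    refine card_le_one.2 fun o ho o' ho' => ?_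
    rw [mem_filter, mem_range] at ho ho'
    rw [mem_range] at hs
    simp only [hdp] at ho ho'
    have h1 := head_le (M := M) x s
    have h2 := head_step ((step1 M)^[s] (init1 M x))
    rw [← iterate_succ_apply' (step1 M), Nat.succ_eq_add_one] at h2
    rw [abs_le] at h1 h2
    generalize ((step1 M)^[s] (init1 M x)).head = u at *
    generalize ((step1 M)^[s + 1] (init1 M x)).head = v at *
    have key : ∀ o : ℕ, (u + (t + 1 + o : ℕ)).toNat / b ≠ (v + (t + 1 + o : ℕ)).toNat / b →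
        b ∣ (max u v + t + 1).toNat + o := by
      intro o hne
      rcases lt_trichotomy u v with h | h | h
      · rw [show (v + (t + 1 + o : ℕ)).toNat = (u + (t + 1 + o : ℕ)).toNat + 1 by omega,
          Nat.succ_div] at hne
        rw [show (max u v + t + 1).toNat + o = (u + (t + 1 + o : ℕ)).toNat + 1 by omega]
        by_contra h3
        exact hne (by rw [if_neg h3, add_zero])
      · exact absurd (by rw [h]) hne
      · rw [show (u + (t + 1 + o : ℕ)).toNat = (v + (t + 1 + o : ℕ)).toNat + 1 by omega,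
          Nat.succ_div] at hne
        rw [show (max u v + t + 1).toNat + o = (v + (t + 1 + o : ℕ)).toNat + 1 by omega]
        by_contra h3
        exact hne (by rw [if_neg h3, add_zero])
    have k1 := key o ho.2
    have k2 := key o' ho'.2
    rcases le_total o o' with h | h
    · have := Nat.eq_zero_of_dvd_of_lt (Nat.dvd_sub k2 k1) (by omega)
      omega
    · have := Nat.eq_zero_of_dvd_of_lt (Nat.dvd_sub k1 k2) (by omega)
      omega
  obtain ⟨o, ho, h1⟩ := exists_le_of_sum_le (s := range b) ⟨0, mem_range.2 hb⟩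
    (f := fun o => cross (init1 M x) (t + 1 + o) b t * b) (g := fun _ => t)
    (by rw [← sum_mul, sum_const, card_range, smul_eq_mul, mul_comm b]; exact Nat.mul_le_mul_right _ h)
  exact ⟨o, mem_range.1 ho, h1⟩

variable (M)

def pl (q ρ : ℕ) : ℕ := ρ + q ^ 2 * M.ng

def plen (q ρ : ℕ) : ℕ := M.pl q ρ + q * (ρ * q) + ρ * q + q + 2

open Classical in
noncomputable def Dm (x : List (Fin a)) (q sh ρ p Mx : ℕ) : ℕ :=
  if Val (M.pl q ρ) (ρ * q) q (2 * q ^ 3 + 3) Mx p (M.plen q ρ) (q + 1) ∧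
      M.nq * ((2 * q ^ 3 + 3) * q ^ 2) ≤ pw Mx 2 ρ ∧
      pw Mx 2 ρ * pw Mx M.ng (q ^ 2) ≤ pw Mx 2 (M.pl q ρ) ∧ sh < (2 * q ^ 3 + 3) * q ^ 2 then
    M.oc (outN (M.sys x Mx ρ (q ^ 2) (2 * q ^ 3 + 3) (q ^ 5) sh q q (M.pl q ρ)) Mx p (M.plen q ρ) (q + 1)
      % pw Mx 2 ρ % M.nq)
  else 0

theorem ls_Dm {α : Type} [Ctx a α] {x : α → List (Fin a)} {q sh ρ p Mx : α → ℕ} (hx : LS a x)
    (h1 : LS a q) (h2 : LS a sh) (h3 : LS a ρ) (h4 : LS a p) (h5 : LS a Mx) :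
    LS a fun u => M.Dm (x u) (q u) (sh u) (ρ u) (p u) (Mx u) := by
  have g1 : LS a fun u => M.pl (q u) (ρ u) := by unfold pl; fun_prop
  have g2 : LS a fun u => M.plen (q u) (ρ u) := by unfold plen pl; fun_prop
  have g3 : LS a fun u => outN (M.sys (x u) (Mx u) (ρ u) (q u ^ 2) (2 * q u ^ 3 + 3) (q u ^ 5) (sh u)
      (q u) (q u) (M.pl (q u) (ρ u))) (Mx u) (p u) (M.plen (q u) (ρ u)) (q u + 1) := by
    unfold sys
    refine LS.outN g1 ?_ h1 ?_ ?_ ?_ ?_ h5 h4 g2 ?_ <;> fun_prop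
  unfold Dm
  refine LS.ite ((LS.val g1 (by fun_prop) h1 (by fun_prop) h5 h4 g2 (by fun_prop)).and
    (LS.and (by fun_prop) (LS.and ?_ (by fun_prop)))) (M.ls_oc ((g3.mod (by fun_prop)).mod (LS.const _)))
    (LS.const 0)
  exact LS.le (by fun_prop) (LS.pw h5 (LS.const 2) g1)

noncomputable def D (u : ℕ × List (Fin a)) : ℕ :=
  M.Dm u.2 (Pk.un u.1 : ℕ × ℕ × ℕ × ℕ × ℕ).1 (Pk.un u.1 : ℕ × ℕ × ℕ × ℕ × ℕ).2.1
    (Pk.un u.1 : ℕ × ℕ × ℕ × ℕ × ℕ).2.2.1 (Pk.un u.1 : ℕ × ℕ × ℕ × ℕ × ℕ).2.2.2.1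
    (Pk.un u.1 : ℕ × ℕ × ℕ × ℕ × ℕ).2.2.2.2

theorem ls_D : LS a M.D := by
  have h : LS a fun u : ℕ × List (Fin a) => (Pk.un u.1 : ℕ × ℕ × ℕ × ℕ × ℕ) :=
    PkLS.un.comp (LS.fst LS.id')
  exact M.ls_Dm (LS.snd LS.id') h.fst h.snd.fst h.snd.snd.fst h.snd.snd.snd.fst h.snd.snd.snd.snd

theorem Dm_sound (x : List (Fin a)) (q sh ρ p Mx : ℕ) {t : ℕ} {β : Bool}
    (h : M.out ((step1 M)^[t] (init1 M x)).state = some β) (h0 : M.Dm x q sh ρ p Mx ≠ 0) :
    M.Dm x q sh ρ p Mx = 2 ↔ β = true := by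
  unfold Dm at h0 ⊢
  split_ifs at h0 ⊢ with hv
  · rw [M.outN_sys x hv.1 hv.2.1 hv.2.2.1 hv.2.2.2, oc_eq] at h0 ⊢
    obtain ⟨τ, hτ⟩ := gsegs_prog (sh := sh) (b := q ^ 2) (m := 2 * q ^ 3 + 3) (T := q ^ 5)
      (init1 M x) ((q + 1) * (q * q))
    rw [hτ] at h0 ⊢
    have h1 : M.out ((step1 M)^[τ] (init1 M x)).state ≠ none := fun h2 => h0 (by rw [h2]; rfl)
    have h2 : (step1 M)^[τ] (init1 M x) = (step1 M)^[t] (init1 M x) := by
      rcases le_total τ t with h3 | h3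
      · exact (halt_fix h1 h3).symm
      · exact halt_fix (by rw [h]; simp) h3
    rw [h2, h]
    cases β <;> simp [ocode]
  · exact absurd rfl h0

theorem Dm_complete (x : List (Fin a)) {q ρ p Mx t : ℕ} {β : Bool}
    (h : M.out ((step1 M)^[t] (init1 M x)).state = some β) (hq : 1 ≤ q) (ht : t ≤ q ^ 5)
    (hv : Val (M.pl q ρ) (ρ * q) q (2 * q ^ 3 + 3) Mx p (M.plen q ρ) (q + 1))
    (h1 : M.nq * ((2 * q ^ 3 + 3) * q ^ 2) ≤ pw Mx 2 ρ)
    (h2 : pw Mx 2 ρ * pw Mx M.ng (q ^ 2) ≤ pw Mx 2 (M.pl q ρ)) :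
    ∃ sh < (2 * q ^ 3 + 3) * q ^ 2, M.Dm x q sh ρ p Mx ≠ 0 := by
  have hb : 0 < q ^ 2 := by positivity
  obtain ⟨o, ho, h3⟩ := exists_offset (M := M) x (t := t) hb
  have e : (2 * q ^ 3 + 3) * q ^ 2 = 2 * q ^ 5 + 3 * q ^ 2 := by ring
  have hsh : t + 1 + o < (2 * q ^ 3 + 3) * q ^ 2 := by omega
  refine ⟨t + 1 + o, hsh, ?_⟩
  have hne : M.out ((step1 M)^[t] (init1 M x)).state ≠ none := by rw [h]; simp
  have hh : ∀ τ, |((step1 M)^[τ] (init1 M x)).head| ≤ t := fun τ => by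
    rcases le_total τ t with h4 | h4
    · exact (head_le x τ).trans (by exact_mod_cast h4)
    · rw [halt_fix hne h4]; exact head_le x t
  obtain ⟨τ, h4, h5⟩ := complete (sh := t + 1 + o) (b := q ^ 2) (m := 2 * q ^ 3 + 3) (T := q ^ 5)
    (c0 := init1 M x) (t := t) (K := (q + 1) * (q * q)) (fun τ => by
      have := hh τ
      rw [abs_le] at this
      unfold hdp
      omega) ht (by
      have h6 : cross (init1 M x) (t + 1 + o) (q ^ 2) t ≤ q ^ 3 :=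
        Nat.le_of_mul_le_mul_right (h3.trans (ht.trans_eq (by ring))) hb
      nlinarith)
  rw [Dm, if_pos ⟨hv, h1, h2, hsh⟩, M.outN_sys x hv h1 h2 hsh, oc_eq, h5, halt_fix hne h4, h]
  cases β <;> simp [ocode]

end TM1

theorem prod_cnt_le {p r m E Y : ℕ} (h1 : p * 7 ≤ Y) (h2 : (m + 1) * 3 ≤ Y) (A : ℕ) :
    ∏ i ∈ range (A * (r + 3)), cntF p r m E i ≤ (Y ^ (r + 3) * E) ^ A := by
  induction A with
  | zero => simp
  | succ A ih =>
    rw [Nat.succ_mul, prod_range_add, pow_succ]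
    refine Nat.mul_le_mul ih ?_
    calc ∏ t ∈ range (r + 3), cntF p r m E (A * (r + 3) + t)
        ≤ ∏ t ∈ range (r + 3), (Y * if t = 1 then E else 1) := by
          refine prod_le_prod' fun t ht => ?_
          rw [cntF, rk_mod _ _ _ (mem_range.1 ht)]
          split_ifs
          · omega
          · omega
          · rw [mul_comm]; exact Nat.mul_le_mul_right _ h2
          · omega
      _ = Y ^ (r + 3) * E := by
          rw [prod_mul_distrib, prod_const, card_range, prod_ite_eq', if_pos (mem_range.2 (by omega))]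

/-- `f q ≤ C q^i (size q)^j` for `q ≥ 1`. -/
def Gr (i j : ℕ) (f : ℕ → ℕ) : Prop := ∃ C, ∀ q, 1 ≤ q → f q ≤ C * (q ^ i * q.size ^ j)

namespace Gr

theorem mono {i j i' j' : ℕ} {f : ℕ → ℕ} (h : Gr i j f) (hi : i ≤ i') (hj : j ≤ j') : Gr i' j' f :=
  let ⟨C, hC⟩ := h
  ⟨C, fun q hq => (hC q hq).trans (Nat.mul_le_mul_left _ (Nat.mul_le_mul
    (Nat.pow_le_pow_right hq hi) (Nat.pow_le_pow_right (Nat.size_pos.2 hq) hj)))⟩

theorem const (c : ℕ) : Gr 0 0 fun _ => c := ⟨c, fun _ _ => by simp⟩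

theorem id' : Gr 1 0 fun q => q := ⟨1, fun _ _ => by simp⟩

theorem size : Gr 0 1 fun q => q.size := ⟨1, fun _ _ => by simp⟩

theorem add {i j : ℕ} {f g : ℕ → ℕ} (hf : Gr i j f) (hg : Gr i j g) : Gr i j fun q => f q + g q :=
  let ⟨C, hC⟩ := hf; let ⟨D, hD⟩ := hg
  ⟨C + D, fun q hq => by rw [add_mul]; exact add_le_add (hC q hq) (hD q hq)⟩

theorem mul {i j i' j' : ℕ} {f g : ℕ → ℕ} (hf : Gr i j f) (hg : Gr i' j' g) :
    Gr (i + i') (j + j') fun q => f q * g q :=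
  let ⟨C, hC⟩ := hf; let ⟨D, hD⟩ := hg
  ⟨C * D, fun q hq => (Nat.mul_le_mul (hC q hq) (hD q hq)).trans_eq (by ring)⟩

end Gr

namespace TM1

variable (M : TM1 a)

theorem params : ∃ C : ℕ, ∀ q, 1 ≤ q → ∃ ρ p e : ℕ, e ≤ C * (q ^ 2 * q.size ^ 2) ∧
    Val (M.pl q ρ) (ρ * q) q (2 * q ^ 3 + 3) (2 ^ e) p (M.plen q ρ) (q + 1) ∧
    M.nq * ((2 * q ^ 3 + 3) * q ^ 2) ≤ pw (2 ^ e) 2 ρ ∧
    pw (2 ^ e) 2 ρ * pw (2 ^ e) M.ng (q ^ 2) ≤ pw (2 ^ e) 2 (M.pl q ρ) ∧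
    (2 * q ^ 3 + 3) * q ^ 2 ≤ 2 ^ e ∧ ρ ≤ 2 ^ e ∧ p ≤ 2 ^ e := by
  let ρ : ℕ → ℕ := fun q => M.nq + 5 * q.size + 3
  let Dg : ℕ → ℕ := fun q => (2 * q ^ 3 + 3) * (M.pl q (ρ q) + q * (ρ q * q)) + 1
  have pq : PB (fun q : ℕ => q) fun q => q := PB.refl
  have pρ : PB (fun q : ℕ => q) ρ := ((PB.const _).add ((PB.const 5).mul
    (pq.of_le fun q => Nat.size_le.2 Nat.lt_two_pow_self))).add (PB.const 3)
  have pm : PB (fun q : ℕ => q) fun q => 2 * q ^ 3 + 3 := ((PB.const 2).mul (pq.pow 3)).add (PB.const 3)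
  have pD : PB (fun q : ℕ => q) Dg := (pm.mul ((pρ.add ((pq.pow 2).mul (PB.const _))).add
    (pq.mul (pρ.mul pq)))).add (PB.const 1)
  obtain ⟨d, hd⟩ := (((((PB.const 14).mul pD).add ((pm.add (PB.const 1)).mul (PB.const 3))).add
    ((PB.const 2).mul pq)).add ((pq.add (PB.const 1)).mul (pq.add (PB.const 3)))).add
    (pm.mul (pq.pow 2))
  let y : ℕ → ℕ := fun q => d * (q.size + 1)
  let e : ℕ → ℕ := fun q => y q * (4 * M.plen q (ρ q)) + (y q * (q + 3) + ρ q * q) * (q + 2) + y q + 1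
  have g1 : Gr 0 1 ρ := (((Gr.const _).mono le_rfl (by omega)).add ((Gr.const 5).mul Gr.size)).add
    ((Gr.const _).mono le_rfl (by omega))
  have g2 : Gr 0 1 y := (Gr.const d).mul (Gr.size.add ((Gr.const _).mono le_rfl (by omega)))
  have gq : ∀ c, Gr 1 0 fun q => q + c := fun c => Gr.id'.add ((Gr.const _).mono (by omega) le_rfl)
  have g3 : Gr 2 1 fun q => M.plen q (ρ q) := by
    have a1 : Gr 2 0 fun q => q ^ 2 * M.ng := by
      simpa [sq] using (Gr.id'.mul Gr.id').mul (Gr.const M.ng)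
    exact (((((g1.mono (by omega) le_rfl).add (a1.mono le_rfl (by omega))).add
      (Gr.id'.mul (g1.mul Gr.id'))).add ((g1.mul Gr.id').mono (by omega) le_rfl)).add
      (Gr.id'.mono (by omega) (by omega))).add ((Gr.const 2).mono (by omega) (by omega))
  obtain ⟨C, hC⟩ : Gr 2 2 e := (((g2.mul ((Gr.const 4).mul g3)).add
    ((((g2.mul (gq 3)).add (g1.mul Gr.id')).mul (gq 2)).mono le_rfl (by omega))).add
    (g2.mono (by omega) (by omega))).add ((Gr.const 1).mono (by omega) (by omega))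
  refine ⟨C, fun q hq => ?_⟩
  obtain ⟨p, hp, hp1, hp2⟩ := Nat.exists_prime_lt_and_le_two_mul (Dg q) (by simp [Dg])
  have hz : q < 2 ^ q.size := Nat.lt_size_self q
  have hz1 : 0 < q.size := Nat.size_pos.2 hq
  have hY : (q + 2) ^ d ≤ 2 ^ y q := by
    rw [show y q = (q.size + 1) * d from mul_comm _ _, pow_mul]
    refine Nat.pow_le_pow_left ?_ _
    have : 2 ^ 1 ≤ 2 ^ q.size := Nat.pow_le_pow_right (by norm_num) hz1
    omega
  have hd1 := (hd q).trans hY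
  dsimp only at hd1
  have hye : ∀ n, n < e q → 2 ^ n < 2 ^ e q := fun n hn => Nat.pow_lt_pow_right (by norm_num) hn
  have hY1 : 2 ^ y q < 2 ^ e q := hye _ (by simp only [e]; omega)
  have hpl : p ^ (4 * M.plen q (ρ q)) < 2 ^ e q := by
    refine (Nat.pow_le_pow_left (show p ≤ 2 ^ y q by omega) _).trans_lt ?_
    rw [← pow_mul]
    exact hye _ (by simp only [e]; omega)
  have h2M : ∀ n ≤ M.plen q (ρ q), 2 ^ n ≤ 2 ^ e q := fun n hn =>
    ((Nat.pow_le_pow_left hp.two_le n).trans (Nat.pow_le_pow_right hp.pos (by omega))).trans hpl.le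
  have l1 : M.pl q (ρ q) ≤ M.plen q (ρ q) := by unfold plen; omega
  have l2 : ρ q * q ≤ M.plen q (ρ q) := by unfold plen; omega
  have l3 : ρ q ≤ M.pl q (ρ q) := by unfold pl; omega
  have l4 : M.ng ^ q ^ 2 ≤ 2 ^ (q ^ 2 * M.ng) := by
    rw [mul_comm, pow_mul]; exact Nat.pow_le_pow_left Nat.lt_two_pow_self.le _
  refine ⟨ρ q, p, e q, hC q hq, ⟨hp, l1, by unfold plen; omega, l2, by unfold plen; omega,
    by rw [pw_eq hpl.le]; exact hpl, ?_, by omega, by omega, by omega, hp1⟩, ?_, ?_, by omega,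
    (Nat.lt_two_pow_self.le.trans (h2M _ (l3.trans l1))), by omega⟩
  · rw [pw_eq (h2M _ l2), lamN_eq_min hp.pos (by positivity)]
    refine (min_le_left _ _).trans_lt ?_
    have h3 := RP.lam_mono ⟨cntF p q (2 * q ^ 3 + 3) (2 ^ (ρ q * q)), fun _ _ _ => 0, fun _ _ _ => 0⟩
      (cntF_pos hp.pos (by positivity)) (show (q + 1) * (q + 3) + 1 ≤ (q + 2) * (q + 3) by nlinarith)
    refine (h3.trans (prod_cnt_le (Y := 2 ^ y q) (by omega) (by omega) _)).trans_lt ?_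
    rw [← pow_mul, ← pow_add, ← pow_mul]
    exact hye _ (by simp only [e]; omega)
  · rw [pw_eq (h2M _ (l3.trans l1))]
    have h3 : q ^ 5 ≤ 2 ^ (5 * q.size) := by
      rw [mul_comm, pow_mul]; exact Nat.pow_le_pow_left hz.le _
    have h4 : q ^ 2 ≤ q ^ 5 := Nat.pow_le_pow_right hq (by norm_num)
    have h5 : (2 * q ^ 3 + 3) * q ^ 2 = 2 * q ^ 5 + 3 * q ^ 2 := by ring
    simp only [ρ]
    rw [pow_add, pow_add, mul_assoc]
    exact Nat.mul_le_mul Nat.lt_two_pow_self.le (by omega)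
  · rw [pw_eq (h2M _ (l3.trans l1)), pw_eq (h2M _ l1),
      pw_eq (l4.trans (h2M _ (le_trans (by unfold pl; omega) l1))), pl, pow_add 2 (ρ q)]
    exact Nat.mul_le_mul_left _ l4

theorem machine : ∃ (M' : TMS a) (C : ℕ), ∀ (x : List (Fin a)) (t q : ℕ) (β : Bool),
    M.out ((step1 M)^[t] (init1 M x)).state = some β → 1 ≤ q → t ≤ q ^ 5 → x.length ≤ t →
    (∃ τ, M'.out ((stepS M' x)^[τ] (initS M')).state = some β) ∧
      ∀ τ j, ((stepS M' x)^[τ] (initS M')).head j ≤ C * (q ^ 2 * q.size ^ 2) := by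
  have hD := M.ls_D
  obtain ⟨M', d, hM⟩ := search (fun u => if M.D u = 0 then 1 else 0) (fun u => if M.D u = 2 then 1 else 0)
    (LS.toCF (by fun_prop)) (LS.toCF (by fun_prop))
  obtain ⟨C, hC⟩ := M.params
  have pq : PB (fun q : ℕ => q) fun q => q := PB.refl
  have st : ∀ {f : ℕ → ℕ}, PB (fun q : ℕ => q) f → PB (fun q : ℕ => q) fun q => (q + f q + 1) ^ 2 :=
    fun h => ((pq.add h).add (PB.const 1)).pow 2
  obtain ⟨d2, hd2⟩ := (((st (st (st (st pq)))).add pq).add (PB.const 2)).pow d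
  refine ⟨M', (C + 2) * d2 + 2, fun x t q β h hq ht hx => ?_⟩
  obtain ⟨ρ, p, e, he, hv, h1, h2, h3, h4, h5⟩ := hC q hq
  obtain ⟨sh, h6, h7⟩ := M.Dm_complete x h hq ht hv h1 h2
  have h8 : q ^ 5 ≤ (2 * q ^ 3 + 3) * q ^ 2 := by
    rw [show (2 * q ^ 3 + 3) * q ^ 2 = 2 * q ^ 5 + 3 * q ^ 2 by ring]; omega
  have h9 : q ≤ q ^ 5 := Nat.le_self_pow (by norm_num) q
  have hN : Pk.pk ((q, sh, ρ, p, 2 ^ e) : ℕ × ℕ × ℕ × ℕ × ℕ) ≤ Pk.bd (ℕ × ℕ × ℕ × ℕ × ℕ) (2 ^ e) := by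
    have := Pk.pk_tr (2 ^ e) ((q, sh, ρ, p, 2 ^ e) : ℕ × ℕ × ℕ × ℕ × ℕ)
    rwa [show Pk.tr (2 ^ e) ((q, sh, ρ, p, 2 ^ e) : ℕ × ℕ × ℕ × ℕ × ℕ) = (q, sh, ρ, p, 2 ^ e) from
      Prod.ext (min_eq_left (show q ≤ 2 ^ e by omega)) (Prod.ext (min_eq_left (show sh ≤ 2 ^ e by omega))
        (Prod.ext (min_eq_left h4) (Prod.ext (min_eq_left h5) (min_self _))))] at this
  obtain ⟨N', g1, g2, g3⟩ := hM x (Pk.pk ((q, sh, ρ, p, 2 ^ e) : ℕ × ℕ × ℕ × ℕ × ℕ)) (by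
    rw [if_neg]
    simpa only [D, Pk.un_pk] using h7)
  have g4 : M.D (N', x) ≠ 0 := fun h0 => by simp [h0] at g1
  have g5 : M.D (N', x) = 2 ↔ β = true := M.Dm_sound x _ _ _ _ _ h g4
  refine ⟨?_, fun τ j => (g3 τ j).trans ?_⟩
  · have : decide ((if M.D (N', x) = 2 then 1 else 0) ≠ 0) = β := by
      cases β <;> simp_all
    rwa [this] at g2
  · have k1 : (Pk.pk ((q, sh, ρ, p, 2 ^ e) : ℕ × ℕ × ℕ × ℕ × ℕ) + x.length + 2) ^ d ≤
        2 ^ ((e + 2) * d2) := by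
      refine (Nat.pow_le_pow_left ?_ d).trans ((hd2 (2 ^ e)).trans ?_)
      · exact Nat.add_le_add_right (Nat.add_le_add hN (by omega)) 2
      · rw [pow_mul]
        refine Nat.pow_le_pow_left ?_ _
        have : 0 < 2 ^ e := by positivity
        dsimp only
        rw [pow_add]; omega
    have k2 := Nat.size_le_size k1
    rw [Nat.size_pow] at k2
    have k3 : 1 ≤ q ^ 2 * q.size ^ 2 := Nat.mul_pos (by positivity) (Nat.pow_pos (Nat.size_pos.2 hq))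
    have k4 : (e + 2) * d2 ≤ (C + 2) * (q ^ 2 * q.size ^ 2) * d2 :=
      Nat.mul_le_mul_right _ (by rw [add_mul]; omega)
    nlinarith

end TM1

theorem exists_q (t : ℕ) : ∃ q, 1 ≤ q ∧ t ≤ q ^ 5 ∧
    ((q ^ 2 * q.size ^ 2 : ℕ) : ℝ) ≤ 36 * ((t : ℝ) ^ (2 / 5 : ℝ) * Real.log (t + 2) ^ 2) + 1 := by
  have hex : ∃ q, t ≤ (q + 1) ^ 5 := ⟨t, (Nat.le_succ t).trans (Nat.le_self_pow (by norm_num) _)⟩
  classical
  refine ⟨Nat.find hex + 1, by omega, Nat.find_spec hex, ?_⟩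
  have hpos : (0 : ℝ) ≤ (t : ℝ) ^ (2 / 5 : ℝ) * Real.log (t + 2) ^ 2 := by positivity
  rcases Nat.eq_zero_or_pos (Nat.find hex) with h | h
  · rw [h]; norm_num; exact hpos
  · have h1 := Nat.find_min hex (show Nat.find hex - 1 < Nat.find hex by omega)
    rw [Nat.sub_add_cancel h, not_le] at h1
    generalize Nat.find hex = k at h h1
    have h2 : ((k : ℝ) ^ 2) ≤ (t : ℝ) ^ (2 / 5 : ℝ) := by
      have : ((k : ℝ) ^ 5) ^ (2 / 5 : ℝ) ≤ (t : ℝ) ^ (2 / 5 : ℝ) :=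
        Real.rpow_le_rpow (by positivity) (by exact_mod_cast h1.le) (by norm_num)
      rwa [← Real.rpow_natCast, ← Real.rpow_mul (by positivity),
        show ((5 : ℕ) : ℝ) * (2 / 5) = (2 : ℕ) by norm_num, Real.rpow_natCast] at this
    have h3 : ((k + 1 : ℕ) : ℝ) ^ 2 ≤ 4 * (k : ℝ) ^ 2 := by
      have : (1 : ℝ) ≤ k := by exact_mod_cast h
      push_cast; nlinarith
    have h4 : k + 1 ≤ t + 2 := by
      have := Nat.le_self_pow (show 5 ≠ 0 by norm_num) k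
      omega
    obtain ⟨z, hz⟩ : ∃ z, (k + 1).size = z + 1 := ⟨(k + 1).size - 1, by
      have : 0 < (k + 1).size := Nat.size_pos.2 (Nat.succ_pos k)
      omega⟩
    have h5 : 2 ^ z ≤ t + 2 := (Nat.lt_size.1 (by omega)).trans h4
    have h6 : (z : ℝ) * Real.log 2 ≤ Real.log (t + 2) := by
      rw [← Real.log_pow]
      exact Real.log_le_log (by positivity) (by exact_mod_cast h5)
    have h7 : Real.log 2 ≤ Real.log (t + 2) :=
      Real.log_le_log (by norm_num) (by have : (0 : ℝ) ≤ t := by positivity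
                                        linarith)
    have h8 := Real.log_two_gt_d9
    have h9 : ((z + 1 : ℕ) : ℝ) ≤ 3 * Real.log (t + 2) := by
      have : (0 : ℝ) ≤ z := by positivity
      push_cast; nlinarith
    have h10 : ((z + 1 : ℕ) : ℝ) ^ 2 ≤ (3 * Real.log (t + 2)) ^ 2 :=
      pow_le_pow_left₀ (by positivity) h9 2
    rw [hz, Nat.cast_mul, Nat.cast_pow, Nat.cast_pow]
    calc ((k + 1 : ℕ) : ℝ) ^ 2 * ((z + 1 : ℕ) : ℝ) ^ 2
        ≤ (4 * (t : ℝ) ^ (2 / 5 : ℝ)) * (3 * Real.log (t + 2)) ^ 2 :=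
          mul_le_mul (by linarith) h10 (by positivity) (by positivity)
      _ ≤ _ := by nlinarith

theorem main (t : ℕ → ℕ) (ht : ∀ n, n ≤ t n) :
    TIME1 a t ⊆ SPACE a fun n => (t n : ℝ) ^ (2 / 5 : ℝ) * Real.log (t n + 2) ^ 2 := by
  rintro L ⟨M, hM⟩
  obtain ⟨M', C, hC⟩ := M.machine
  refine ⟨M', 36 * C, fun x => ?_⟩
  obtain ⟨β, h1, h2⟩ := hM x
  obtain ⟨q, hq, h3, h4⟩ := exists_q (t x.length)
  obtain ⟨⟨τ, h5⟩, h6⟩ := hC x _ q β h1 hq h3 (ht _)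
  refine ⟨⟨τ, β, h5, h2⟩, fun τ j => ?_⟩
  have h7 : ((((stepS M' x)^[τ] (initS M')).head j : ℕ) : ℝ) ≤ C * ((q ^ 2 * q.size ^ 2 : ℕ) : ℝ) := by
    exact_mod_cast h6 τ j
  have h8 : (0 : ℝ) ≤ C := by positivity
  nlinarith [mul_le_mul_of_nonneg_left h4 h8]

theorem space_mono {s s' : ℕ → ℝ} {K : ℝ} (hK : 0 ≤ K) (h0 : ∀ n, 0 ≤ s n) (h0' : ∀ n, 0 ≤ s' n)
    (h : ∀ n, s n ≤ K * s' n) : SPACE a s ⊆ SPACE a s' := by
  rintro L ⟨M, c, hM⟩
  refine ⟨M, |c| * (K + 1), fun x => ⟨(hM x).1, fun τ j => ((hM x).2 τ j).trans ?_⟩⟩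
  have h1 := le_abs_self c
  have h2 := abs_nonneg c
  have h3 := h0 x.length
  have h4 := h0' x.length
  have h5 := h x.length
  nlinarith [mul_le_mul_of_nonneg_left h5 h2, mul_le_mul_of_nonneg_right h1 h3, mul_nonneg h2 h4,
    mul_nonneg h2 hK]

theorem log_bound {e : ℝ} (he : 2 / 5 < e) : ∃ K : ℝ, 0 ≤ K ∧ ∀ t : ℕ,
    (t : ℝ) ^ (2 / 5 : ℝ) * Real.log (t + 2) ^ 2 ≤ K * (t : ℝ) ^ e := by
  obtain ⟨ε, hε, rfl⟩ : ∃ ε : ℝ, 0 < ε ∧ e = 2 / 5 + ε * 2 := ⟨(e - 2 / 5) / 2, by linarith, by ring⟩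
  refine ⟨((3 : ℝ) ^ ε / ε) ^ 2, by positivity, fun t => ?_⟩
  rcases Nat.eq_zero_or_pos t with rfl | ht
  · simp only [Nat.cast_zero, Real.zero_rpow (show (2 / 5 : ℝ) ≠ 0 by norm_num), zero_mul]
    positivity
  · have h1 : (1 : ℝ) ≤ t := by exact_mod_cast ht
    have h2 : Real.log (t + 2) ≤ (3 : ℝ) ^ ε / ε * (t : ℝ) ^ ε := by
      refine (Real.log_le_rpow_div (by positivity) hε).trans ?_
      rw [div_mul_eq_mul_div, ← Real.mul_rpow (by norm_num) (by positivity)]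
      exact div_le_div_of_nonneg_right (Real.rpow_le_rpow (by positivity) (by linarith) hε.le) hε.le
    have h3 := pow_le_pow_left₀ (Real.log_nonneg (by linarith)) h2 2
    rw [Real.rpow_add (by positivity), Real.rpow_mul (by positivity), Real.rpow_two]
    calc _ ≤ (t : ℝ) ^ (2 / 5 : ℝ) * ((3 : ℝ) ^ ε / ε * (t : ℝ) ^ ε) ^ 2 :=
          mul_le_mul_of_nonneg_left h3 (by positivity)
      _ = _ := by ring

end Vale.Agent.P312
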