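import Vale.Agent.P312.RP

/-! Digits, multilinear extensions and interpolation over `ZMod p`. -/

namespace Vale.Agent.P312

open Finset Polynomial

/-- Digit `k` of `s` in base `b`. -/
def dig (b s k : ℕ) : ℕ := s / b ^ k % b

/-- The number with digits `f k % b`, `k < n`. -/
def tab (b n : ℕ) (f : ℕ → ℕ) : ℕ := ∑ k ∈ range n, f k % b * b ^ k

theorem tab_succ (b n : ℕ) (f : ℕ → ℕ) : tab b (n + 1) f = tab b n f + f n % b * b ^ n :=
  sum_range_succ _ _

theorem tab_lt {b : ℕ} (hb : 0 < b) (n : ℕ) (f : ℕ → ℕ) : tab b n f < b ^ n := by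
  induction n with
  | zero => simp [tab]
  | succ n ih =>
    rw [tab_succ, pow_succ]
    have := Nat.mod_lt (f n) hb
    nlinarith

theorem dig_of_lt {b s k : ℕ} (h : s < b ^ k) : dig b s k = 0 := by
  rw [dig, Nat.div_eq_of_lt h, Nat.zero_mod]

theorem dig_add_mul {b : ℕ} (hb : 0 < b) (s c : ℕ) {k n : ℕ} (h : k < n) :
    dig b (s + c * b ^ n) k = dig b s k := by
  obtain ⟨d, rfl⟩ := Nat.exists_eq_add_of_lt h
  rw [dig, dig, show c * b ^ (k + d + 1) = b ^ k * (b * (c * b ^ d)) by ring,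
    Nat.add_mul_div_left _ _ (by positivity), Nat.add_mul_mod_self_left]

theorem dig_tab {b : ℕ} (hb : 0 < b) {n k : ℕ} (f : ℕ → ℕ) (h : k < n) :
    dig b (tab b n f) k = f k % b := by
  induction n with
  | zero => omega
  | succ n ih =>
    rw [tab_succ]
    rcases eq_or_ne k n with rfl | hk
    · rw [dig, Nat.add_mul_div_right _ _ (by positivity), Nat.div_eq_of_lt (tab_lt hb _ _), zero_add,
        Nat.mod_mod]
    · rw [dig_add_mul hb _ _ (by omega), ih (by omega)]

theorem tab_dig (b s n : ℕ) : tab b n (dig b s) = s % b ^ n := by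
  induction n with
  | zero => simp [tab, Nat.mod_one]
  | succ n ih => rw [tab_succ, ih, Nat.mod_pow_succ, dig, Nat.mod_mod, mul_comm]

theorem tab_congr {b n : ℕ} {f g : ℕ → ℕ} (h : ∀ k < n, f k % b = g k % b) : tab b n f = tab b n g :=
  sum_congr rfl fun k hk => by rw [h k (mem_range.1 hk)]

theorem eq_of_dig {b n s s' : ℕ} (hs : s < b ^ n) (hs' : s' < b ^ n)
    (h : ∀ k < n, dig b s k = dig b s' k) : s = s' := by
  rw [← Nat.mod_eq_of_lt hs, ← Nat.mod_eq_of_lt hs', ← tab_dig, ← tab_dig]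
  exact tab_congr fun k hk => by rw [h k hk]

theorem dig_mod_pow {b : ℕ} (hb : 0 < b) (s : ℕ) {k n : ℕ} (h : k < n) :
    dig b (s % b ^ n) k = dig b s k := by
  conv_rhs => rw [← Nat.mod_add_div s (b ^ n), mul_comm]
  rw [dig_add_mul hb _ _ h]

theorem dig_div_pow (b s n k : ℕ) : dig b (s / b ^ n) k = dig b s (n + k) := by
  rw [dig, dig, Nat.div_div_eq_div_mul, pow_add]

theorem dig_lt {b : ℕ} (hb : 0 < b) (s k : ℕ) : dig b s k < b := Nat.mod_lt _ hb

variable {p : ℕ}

/-- Bits as field elements. -/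
def bit (p x k : ℕ) : ZMod p := (dig 2 x k : ℕ)

def eqv (n x : ℕ) (y : ℕ → ZMod p) : ZMod p :=
  ∏ k ∈ range n, if dig 2 x k = 1 then y k else 1 - y k

/-- Multilinear extension in two blocks of variables. -/
def mle (l μ : ℕ) (g : ℕ → ℕ → ZMod p) (y y' : ℕ → ZMod p) : ZMod p :=
  ∑ x ∈ range (2 ^ l), ∑ w ∈ range (2 ^ μ), eqv l x y * eqv μ w y' * g x w

theorem eqv_congr {n x : ℕ} {y y' : ℕ → ZMod p} (h : ∀ k < n, y k = y' k) : eqv n x y = eqv n x y' :=
  prod_congr rfl fun k hk => by rw [h k (mem_range.1 hk)]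

theorem mle_congr {l μ : ℕ} (g : ℕ → ℕ → ZMod p) {y y' z z' : ℕ → ZMod p} (h : ∀ k < l, y k = z k)
    (h' : ∀ k < μ, y' k = z' k) : mle l μ g y y' = mle l μ g z z' := by
  simp only [mle, eqv_congr h, eqv_congr h']

theorem eqv_bit {n x x0 : ℕ} (hx : x < 2 ^ n) (hx0 : x0 < 2 ^ n) :
    eqv n x (bit p x0) = if x = x0 then 1 else 0 := by
  split_ifs with h
  · subst h
    refine prod_eq_one fun k _ => ?_
    have := dig_lt (b := 2) (by norm_num) x k
    split_ifs with h1
    · simp [bit, h1]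
    · simp [bit, show dig 2 x k = 0 by omega]
  · obtain ⟨k, hk, hne⟩ : ∃ k < n, dig 2 x k ≠ dig 2 x0 k := by
      by_contra h1
      push Not at h1
      exact h (eq_of_dig hx hx0 h1)
    refine prod_eq_zero (mem_range.2 hk) ?_
    have := dig_lt (b := 2) (by norm_num) x k
    have := dig_lt (b := 2) (by norm_num) x0 k
    split_ifs with h1
    · simp [bit, show dig 2 x0 k = 0 by omega]
    · simp [bit, show dig 2 x0 k = 1 by omega]

theorem mle_bit {l μ x0 w0 : ℕ} (g : ℕ → ℕ → ZMod p) (hx : x0 < 2 ^ l) (hw : w0 < 2 ^ μ) :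
    mle l μ g (bit p x0) (bit p w0) = g x0 w0 := by
  rw [mle, sum_eq_single_of_mem x0 (mem_range.2 hx), sum_eq_single_of_mem w0 (mem_range.2 hw),
    eqv_bit hx hx, eqv_bit hw hw]
  · simp
  · intro w hw' hne
    rw [eqv_bit (mem_range.1 hw') hw, if_neg hne]; simp
  · intro x hx' hne
    rw [eqv_bit (mem_range.1 hx') hx, if_neg hne]; simp

/-- Polynomial functions of degree at most `d`. -/
def Deg (d : ℕ) (f : ZMod p → ZMod p) : Prop :=
  ∃ P : (ZMod p)[X], P.natDegree ≤ d ∧ ∀ t, f t = P.eval t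

namespace Deg

theorem mono {d d' : ℕ} {f : ZMod p → ZMod p} (h : Deg d f) (hd : d ≤ d') : Deg d' f :=
  let ⟨P, h1, h2⟩ := h; ⟨P, h1.trans hd, h2⟩

theorem const (c : ZMod p) (d : ℕ) : Deg d fun _ => c := ⟨C c, by simp, by simp⟩

theorem lin (c e : ZMod p) : Deg 1 fun t => t * c + e :=
  ⟨C c * X + C e, natDegree_linear_le, fun t => by rw [eval_add, eval_mul, eval_C, eval_C, eval_X, mul_comm]⟩

theorem add {d : ℕ} {f g : ZMod p → ZMod p} (hf : Deg d f) (hg : Deg d g) :
    Deg d fun t => f t + g t :=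
  let ⟨P, h1, h2⟩ := hf; let ⟨Q, h3, h4⟩ := hg
  ⟨P + Q, (natDegree_add_le _ _).trans (max_le h1 h3), fun t => by simp [h2, h4]⟩

theorem mul {d e : ℕ} {f g : ZMod p → ZMod p} (hf : Deg d f) (hg : Deg e g) :
    Deg (d + e) fun t => f t * g t :=
  let ⟨P, h1, h2⟩ := hf; let ⟨Q, h3, h4⟩ := hg
  ⟨P * Q, natDegree_mul_le.trans (add_le_add h1 h3), fun t => by simp [h2, h4]⟩

theorem sum {d n : ℕ} {f : ℕ → ZMod p → ZMod p} (h : ∀ k < n, Deg d (f k)) :
    Deg d fun t => ∑ k ∈ range n, f k t := by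
  induction n with
  | zero => simpa using const 0 d
  | succ n ih => simpa [sum_range_succ] using (ih fun k hk => h k (by omega)).add (h n (by omega))

theorem prod {d n : ℕ} {f : ℕ → ZMod p → ZMod p} (h : ∀ k < n, Deg d (f k)) :
    Deg (n * d) fun t => ∏ k ∈ range n, f k t := by
  induction n with
  | zero => simpa using const 1 0
  | succ n ih =>
    simpa [prod_range_succ, Nat.succ_mul] using (ih fun k hk => h k (by omega)).mul (h n (by omega))

theorem eqv (n x : ℕ) (τ y : ℕ → ZMod p) : Deg n fun t => eqv n x fun k => t * τ k + y k := by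
  have := prod (p := p) (d := 1) (n := n)
    (f := fun k t => if dig 2 x k = 1 then t * τ k + y k else 1 - (t * τ k + y k)) fun k _ => by
      split_ifs
      · exact lin _ _
      · have e : (fun t => 1 - (t * τ k + y k)) = fun t => t * (-τ k) + (1 - y k) := by
          funext t; ring
        rw [e]; exact lin _ _
  rwa [mul_one] at this

theorem mle (l μ : ℕ) (g : ℕ → ℕ → ZMod p) (τ y τ' y' : ℕ → ZMod p) :
    Deg (l + μ) fun t => mle l μ g (fun k => t * τ k + y k) fun k => t * τ' k + y' k :=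
  sum fun x _ => sum fun w _ => ((eqv l x τ y).mul (eqv μ w τ' y')).mul (const (g x w) 0)

theorem interp [hp : Fact p.Prime] {d : ℕ} {f : ZMod p → ZMod p} (h : Deg d f) (hd : d + 1 < p) :
    ∑ t ∈ range p, (if t = 0 then 0 else f t) = - f 0 := by
  obtain ⟨P, h1, h2⟩ := h
  have h3 : ∑ t : ZMod p, f t = 0 := by
    simp only [h2, eval_eq_sum_range]
    rw [sum_comm]
    refine sum_eq_zero fun i hi => ?_
    rw [← mul_sum, FiniteField.sum_pow_lt_card_sub_one (ZMod p) i (by
      have := mem_range.1 hi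
      rw [ZMod.card]; omega), mul_zero]
  have h4 : ∑ t ∈ range p, f t = ∑ t : ZMod p, f t := by
    refine sum_nbij' (fun t => (t : ZMod p)) (fun t => t.val) (by simp) (fun t _ => ?_)
      (fun t ht => ?_) (fun t _ => by simp) fun _ _ => rfl
    · exact mem_range.2 (ZMod.val_lt t)
    · exact ZMod.val_cast_of_lt (mem_range.1 ht)
  have h5 : ∑ t ∈ range p, f t = ∑ t ∈ range p, ((if t = 0 then 0 else f t) + if t = 0 then f 0 else 0) :=
    sum_congr rfl fun t _ => by split_ifs with h <;> simp [h]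
  rw [sum_add_distrib, sum_ite_eq' _ 0, if_pos (mem_range.2 hp.out.pos), h4, h3] at h5
  exact eq_neg_of_add_eq_zero_left h5.symm

end Deg

end Vale.Agent.P312
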