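import Vale.Agent.P312.Sem

/-! Numerical implementation of the catalytic program. -/

namespace Vale.Agent.P312

open Finset Function

def digM (M b s k : ℕ) : ℕ := s / pw M b k % b

def tabM (M b n : ℕ) (f : ℕ → ℕ) : ℕ := ∑ k ∈ range n, f k % b * pw M b k

def rd (M p s c n : ℕ) : ℕ := digM M p s (4 * n + c)

def mkN (M p len : ℕ) (F : ℕ → ℕ → ℕ) : ℕ := tabM M p (4 * len) fun i => F (i % 4) (i / 4)

def addN (M p len s c : ℕ) (f : ℕ → ℕ) : ℕ :=
  mkN M p len fun c' n => if c' = c then rd M p s c' n + f n else rd M p s c' n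

def sclN (M p len s e μ t : ℕ) : ℕ :=
  mkN M p len fun c n => if c = e ∨ (c = 2 ∧ n < μ) then t * rd M p s c n else rd M p s c n

def setN (M p len s J v : ℕ) : ℕ :=
  mkN M p len fun c n => if c = 3 ∧ n = J then v else rd M p s c n

def prodP (p n : ℕ) (f : ℕ → ℕ) : ℕ := itr p 1 (fun k r => r * f k % p) n

def eqvN (M p n x : ℕ) (y : ℕ → ℕ) : ℕ :=
  prodP p n fun k => if digM M 2 x k = 1 then y k else 1 + (p - 1) * y k

def mleN (M p l μ : ℕ) (g : ℕ → ℕ → ℕ) (y y' : ℕ → ℕ) : ℕ :=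
  ∑ x ∈ range (pw M 2 l), ∑ w ∈ range (pw M 2 μ), eqvN M p l x y * eqvN M p μ w y' * g x w

def sgN (p θ : ℕ) : ℕ := if θ % 2 = 0 then 1 else p - 1

def lamN (M p r m E h : ℕ) : ℕ := itr M 1 (fun i v => cntF p r m E i * v) h

open Classical in
noncomputable def primN (S : Sys) (M p len h θ k s : ℕ) : ℕ :=
  if h % (S.r + 3) = 0 then
    (if h = 0 then
      (if k = 0 then addN M p len s 0 fun n =>
        if n < S.l then sgN p θ * digM M 2 (S.x0 (θ / 2)) n else 0 else s)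
    else if k / 7 = 0 then s
    else if k % 7 = 0 then sclN M p len s ((h / (S.r + 3) + 1) % 2) (S.r * S.lam) (k / 7)
    else if k % 7 = 3 then addN M p len s (h / (S.r + 3) % 2) fun n => if n < S.l then
      sgN p (θ + 1) * mleN M p S.l (S.r * S.lam) (fun x w => digM M 2 (S.Hf (θ / 2) x w) n)
        (rd M p s ((h / (S.r + 3) + 1) % 2)) (rd M p s 2) else 0
    else sclN M p len s ((h / (S.r + 3) + 1) % 2) (S.r * S.lam) (prodP p (p - 2) fun _ => k / 7))
  else if h % (S.r + 3) = 1 then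
    (if k / 3 % (S.m + 1) < S.m then setN M p len s (h / (S.r + 3)) (rd M p s 3 (h / (S.r + 3)) *
      mleN M p S.l (min (θ / 2) S.r * S.lam) (fun x w => if S.Cf (k / 3 % (S.m + 1)) x
        (min (θ / 2) S.r + 1) (w + k / 3 / (S.m + 1) * pw M 2 (min (θ / 2) S.r * S.lam)) then 1 else 0)
        (rd M p s (h / (S.r + 3) % 2)) (rd M p s 2))
    else if k % 3 = 0 then setN M p len (addN M p len s 2 fun n =>
      if θ / 2 * S.lam ≤ n ∧ n < θ / 2 * S.lam + S.lam then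
        sgN p θ * (digM M 2 (k / 3 / (S.m + 1)) (n - θ / 2 * S.lam) * rd M p s 3 (h / (S.r + 3)))
      else 0) (h / (S.r + 3)) 1
    else s)
  else if h % (S.r + 3) = 2 ∨ k / 5 = 0 then s
  else if k % 5 = 0 then sclN M p len s (h / (S.r + 3) % 2) ((h % (S.r + 3) - 3) * S.lam) (k / 5)
  else sclN M p len s (h / (S.r + 3) % 2) ((h % (S.r + 3) - 3) * S.lam)
    (prodP p (p - 2) fun _ => k / 5)

def descN (M p r m E top n : ℕ) : ℕ × ℕ × ℕ :=
  itr M (top, 0, n) (fun _ v => down (chF r m) (ctF r m) (lamN M p r m E) v) top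

noncomputable def simN (S : Sys) (M p len P : ℕ) : ℕ :=
  itr M (mkN M p len fun c _ => if c = 3 then 1 else 0)
    (fun n s => leaf (chF S.r S.m) (lamN M p S.r S.m (pw M 2 S.lam)) (primN S M p len)
      (descN M p S.r S.m (pw M 2 S.lam) (P * (S.r + 3)) n) s)
    (lamN M p S.r S.m (pw M 2 S.lam) (P * (S.r + 3) + 1))

noncomputable def outN (S : Sys) (M p len P : ℕ) : ℕ :=
  tabM M 2 S.l fun n => rd M p (simN S M p len P) (P % 2) n

/-- Validity of the parameters. -/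
def Val (l lam r m M p len P : ℕ) : Prop :=
  p.Prime ∧ l ≤ len ∧ r * lam ≤ len ∧ lam ≤ len ∧ P < len ∧ pw M p (4 * len) < M ∧
    lamN M p r m (pw M 2 lam) (P * (r + 3) + 1) < M ∧ 2 * (m + r) + 1 ≤ M ∧ P * (r + 3) ≤ M ∧
    0 < m ∧ m * (l + r * lam) + 1 < p

theorem digM_of_lt {M b s : ℕ} (h : s < M) (k : ℕ) : digM M b s k = dig b s k := by
  rw [digM, dig, pw_eq_min]
  rcases le_total (b ^ k) M with h1 | h1
  · rw [min_eq_left h1]
  · rw [min_eq_right h1, Nat.div_eq_of_lt h, Nat.div_eq_of_lt (h.trans_le h1)]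

theorem digM_of_pow {M b k : ℕ} (h : b ^ k ≤ M) (s : ℕ) : digM M b s k = dig b s k := by
  rw [digM, dig, pw_eq h]

theorem tabM_eq {M b n : ℕ} (hb : 0 < b) (h : b ^ n ≤ M) (f : ℕ → ℕ) : tabM M b n f = tab b n f :=
  sum_congr rfl fun k hk => by
    rw [pw_eq ((Nat.pow_le_pow_right hb (mem_range.1 hk).le).trans h)]

theorem prodP_cast {p : ℕ} (hp : 0 < p) (n : ℕ) (f : ℕ → ℕ) :
    (prodP p n f : ZMod p) = ∏ k ∈ range n, (f k : ZMod p) := by
  rw [prodP, itr_nat]
  · induction n with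
    | zero => simp [fo]
    | succ n ih => rw [fo, prod_range_succ, ZMod.natCast_mod, Nat.cast_mul, ih]
  · intro k _
    cases k with
    | zero => exact hp
    | succ k => exact (Nat.mod_lt _ hp).le

theorem cast_pred {p : ℕ} (hp : 0 < p) : ((p - 1 : ℕ) : ZMod p) = -1 := by
  rw [Nat.cast_sub hp]; simp

theorem sgN_cast {p : ℕ} (hp : 0 < p) (θ : ℕ) : (sgN p θ : ZMod p) = sg p θ := by
  unfold sgN sg; split_ifs
  · simp
  · exact cast_pred hp

theorem eqvN_cast {M p n x : ℕ} (hp : 0 < p) (hx : x < M) (y : ℕ → ℕ) :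
    (eqvN M p n x y : ZMod p) = eqv n x fun k => (y k : ZMod p) := by
  rw [eqvN, prodP_cast hp]
  refine prod_congr rfl fun k _ => ?_
  rw [digM_of_lt hx]
  split_ifs
  · rfl
  · rw [Nat.cast_add, Nat.cast_mul, cast_pred hp]; simp [sub_eq_add_neg]

theorem mleN_cast {M p l μ : ℕ} (hp : 0 < p) (hl : 2 ^ l ≤ M) (hμ : 2 ^ μ ≤ M) (g : ℕ → ℕ → ℕ)
    (y y' : ℕ → ℕ) : (mleN M p l μ g y y' : ZMod p) =
      mle l μ (fun x w => (g x w : ZMod p)) (fun k => (y k : ZMod p)) fun k => (y' k : ZMod p) := by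
  rw [mleN, mle, pw_eq hl, pw_eq hμ, Nat.cast_sum]
  refine sum_congr rfl fun x hx => ?_
  rw [Nat.cast_sum]
  refine sum_congr rfl fun w hw => ?_
  rw [Nat.cast_mul, Nat.cast_mul, eqvN_cast hp ((mem_range.1 hx).trans_le hl),
    eqvN_cast hp ((mem_range.1 hw).trans_le hμ)]

/-- The number `s` represents the state `σ`. -/
def Ag (p len : ℕ) (σ : St p) (s : ℕ) : Prop :=
  s < p ^ (4 * len) ∧ ∀ c < 4, ∀ n < len, σ c n = (dig p s (4 * n + c) : ℕ)

variable {M p len : ℕ} {σ : St p} {s : ℕ}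

theorem Ag.rd (h : Ag p len σ s) (hM : p ^ (4 * len) ≤ M) {c n : ℕ} (hc : c < 4) (hn : n < len) :
    (rd M p s c n : ZMod p) = σ c n := by
  rw [P312.rd, digM_of_lt (h.1.trans_le hM), h.2 c hc n hn]

theorem ag_mk (hp : 0 < p) (hM : p ^ (4 * len) ≤ M) {F : ℕ → ℕ → ℕ}
    (h : ∀ c < 4, ∀ n < len, σ c n = F c n) : Ag p len σ (mkN M p len F) := by
  rw [mkN, tabM_eq hp hM]
  refine ⟨tab_lt hp _ _, fun c hc n hn => ?_⟩
  rw [dig_tab hp _ (by omega), ZMod.natCast_mod, h c hc n hn, show (4 * n + c) % 4 = c by omega,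
    show (4 * n + c) / 4 = n by omega]

theorem Ag.add (h : Ag p len σ s) (hp : 0 < p) (hM : p ^ (4 * len) ≤ M) (c : ℕ) {f : ℕ → ZMod p}
    {g : ℕ → ℕ} (hf : ∀ n < len, f n = g n) : Ag p len (add σ c f) (addN M p len s c g) :=
  ag_mk hp hM fun c' hc n hn => by
    unfold P312.add; split_ifs <;> simp [h.rd hM hc hn, hf n hn]

theorem Ag.scl (h : Ag p len σ s) (hp : 0 < p) (hM : p ^ (4 * len) ≤ M) (e μ : ℕ) {t : ZMod p}
    {g : ℕ} (hf : t = g) : Ag p len (scl σ e μ t) (sclN M p len s e μ g) :=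
  ag_mk hp hM fun c' hc n hn => by
    unfold P312.scl; split_ifs <;> simp [h.rd hM hc hn, hf]

theorem Ag.setp (h : Ag p len σ s) (hp : 0 < p) (hM : p ^ (4 * len) ≤ M) (J : ℕ) {t : ZMod p}
    {g : ℕ} (hf : t = g) : Ag p len (setp σ J t) (setN M p len s J g) :=
  ag_mk hp hM fun c' hc n hn => by
    unfold P312.setp; split_ifs <;> simp [h.rd hM hc hn, hf]

theorem Ag.prim (h : Ag p len σ s) (S : Sys) (hp : 2 ≤ p) (hM : p ^ (4 * len) ≤ M) (h1 : S.l ≤ len)
    (h2 : S.r * S.lam ≤ len) (h3 : S.lam ≤ len) {t : ℕ} (ht : t / (S.r + 3) < len) (θ k : ℕ) :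
    Ag p len (S.prim p t θ k σ) (primN S M p len t θ k s) := by
  have hp0 : 0 < p := by omega
  have h2M : ∀ n ≤ len, 2 ^ n ≤ M := fun n hn =>
    ((Nat.pow_le_pow_left hp n).trans (Nat.pow_le_pow_right hp0 (by omega))).trans hM
  have hpw : ∀ t : ℕ, (t : ZMod p) ^ (p - 2) = (prodP p (p - 2) fun _ => t : ℕ) := fun t => by
    rw [prodP_cast hp0]; simp
  unfold Sys.prim primN
  split_ifs
  · refine h.add hp0 hM _ fun n hn => ?_
    split_ifs
    · rw [Nat.cast_mul, sgN_cast hp0, digM_of_pow (h2M n hn.le)]; rfl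
    · simp
  · exact h
  · exact h
  · exact h.scl hp0 hM _ _ rfl
  · refine h.add hp0 hM _ fun n hn => ?_
    split_ifs
    · rw [Nat.cast_mul, sgN_cast hp0, mleN_cast hp0 (h2M _ h1) (h2M _ h2), Sys.hm]
      simp only [digM_of_pow (h2M n hn.le)]
      congr 1
      exact mle_congr _ (fun k hk => (h.rd hM (by omega) (by omega)).symm)
        fun k hk => (h.rd hM (by omega) (by omega)).symm
    · simp
  · exact h.scl hp0 hM _ _ (hpw _)
  · refine h.setp hp0 hM _ ?_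
    have h4 : min (θ / 2) S.r * S.lam ≤ len := (Nat.mul_le_mul_right _ (min_le_right _ _)).trans h2
    rw [Nat.cast_mul, h.rd hM (by omega) ht, mleN_cast hp0 (h2M _ h1) (h2M _ h4), Sys.cm,
      pw_eq (h2M _ h4)]
    congr 1
    simp only [Nat.cast_ite, Nat.cast_one, Nat.cast_zero]
    exact mle_congr _ (fun k hk => (h.rd hM (by omega) (by omega)).symm)
      fun k hk => (h.rd hM (by omega) (by omega)).symm
  · refine (h.add hp0 hM _ fun n hn => ?_).setp hp0 hM _ Nat.cast_one.symm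
    split_ifs
    · rw [Nat.cast_mul, Nat.cast_mul, sgN_cast hp0, h.rd hM (by omega) ht,
        digM_of_pow (h2M _ (by omega))]; rfl
    · simp
  · exact h
  · exact h
  · exact h.scl hp0 hM _ _ rfl
  · exact h.scl hp0 hM _ _ (hpw _)

theorem cntF_pos {p r m E : ℕ} (hp : 0 < p) (hE : 0 < E) (h : ℕ) : 0 < cntF p r m E h := by
  unfold cntF; split_ifs <;> positivity

theorem lamN_eq_min {M p r m E : ℕ} (hp : 0 < p) (hE : 0 < E) (h : ℕ) :
    lamN M p r m E h = min (∏ i ∈ range h, cntF p r m E i) M := by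
  induction h with
  | zero => rfl
  | succ h ih =>
    have e : lamN M p r m E (h + 1) = min (cntF p r m E h * lamN M p r m E h) M := rfl
    rw [e, ih, prod_range_succ]
    have := cntF_pos (r := r) (m := m) hp hE h
    rcases le_total (∏ i ∈ range h, cntF p r m E i) M with h1 | h1
    · rw [min_eq_left h1, mul_comm]
    · rw [min_eq_right h1, min_eq_right (by nlinarith), min_eq_right (by nlinarith)]

theorem ctF_le {r m h θ k : ℕ} (hθ : θ ≤ 2 * (m + r) + 1) : ctF r m h θ k ≤ 2 * (m + r) + 1 := by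
  have h1 := Nat.mod_lt h (show 0 < r + 3 by omega)
  have h2 := Nat.mod_lt (k / 3) (show 0 < m + 1 by omega)
  unfold ctF; split_ifs <;> omega

theorem outN_eq (S : Sys) {P : ℕ} (hv : Val S.l S.lam S.r S.m M p len P) {xv : ℕ → ℕ → ℕ}
    {wv : ℕ → ℕ} (h0 : ∀ i, xv i 0 = S.x0 i) (hx : ∀ i J, xv i J < 2 ^ S.l)
    (hw : ∀ J, wv J < 2 ^ (S.r * S.lam))
    (hH : ∀ i J, xv i (J + 1) = S.Hf i (xv i J) (wv J))
    (hC : ∀ J, ∀ j < S.r, ∀ u < 2 ^ S.lam, (∀ i < S.m, S.Cf i (xv i J) (j + 1)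
      (wv J % 2 ^ (j * S.lam) + u * 2 ^ (j * S.lam))) ↔ u = wv J / 2 ^ (j * S.lam) % 2 ^ S.lam) :
    outN S M p len P = xv 0 P := by
  obtain ⟨hp, h1, h2, h3, h4, h5, h6, h7, h8, h9, h10⟩ := hv
  have := Fact.mk hp
  have hp2 := hp.two_le
  have hM : p ^ (4 * len) ≤ M := by rw [pw_eq_min] at h5; omega
  have h2M : ∀ n ≤ len, 2 ^ n ≤ M := fun n hn =>
    ((Nat.pow_le_pow_left hp2 n).trans (Nat.pow_le_pow_right hp.pos (by omega))).trans hM
  set top := P * (S.r + 3) with htop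
  have hc : ∀ h, 0 < (S.ctl p).cnt h := cntF_pos hp.pos (by positivity)
  have hl0 : (S.ctl p).lam (top + 1) < M := by
    rw [pw_eq (h2M _ h3), lamN_eq_min hp.pos (by positivity)] at h6
    exact (min_lt_iff.1 h6).resolve_right (lt_irrefl _)
  have hl : ∀ h ≤ top + 1, lamN M p S.r S.m (pw M 2 S.lam) h = (S.ctl p).lam h := fun h hh => by
    rw [pw_eq (h2M _ h3), lamN_eq_min hp.pos (by positivity)]
    exact min_eq_left (((S.ctl p).lam_mono hc hh).trans hl0.le)
  have hdn : ∀ v : ℕ × ℕ × ℕ, v.1 ≤ top → down (chF S.r S.m) (ctF S.r S.m)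
      (lamN M p S.r S.m (pw M 2 S.lam)) v = down (S.ctl p).ch (S.ctl p).ct (S.ctl p).lam v :=
    fun v hv => by simp only [down, hl _ (Nat.succ_le_succ hv), hl _ (hv.trans (Nat.le_succ _))]; rfl
  have hinv : ∀ n ≤ M, ∀ k, let v := (down (S.ctl p).ch (S.ctl p).ct (S.ctl p).lam)^[k] (top, 0, n)
      v.1 ≤ top ∧ v.2.1 ≤ 2 * (S.m + S.r) + 1 ∧ v.2.2 ≤ M := by
    intro n hn k
    induction k with
    | zero => exact ⟨le_rfl, Nat.zero_le _, hn⟩
    | succ k ih =>
      intro v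
      simp only [v, iterate_succ_apply']
      rw [down]
      split_ifs with h
      · exact ⟨h.2.le.trans ih.1, ctF_le ih.2.1, (Nat.mod_le _ _).trans ih.2.2⟩
      · exact ih
  have hfo : ∀ n ≤ M, ∀ k, fo k (fun _ v => down (chF S.r S.m) (ctF S.r S.m)
      (lamN M p S.r S.m (pw M 2 S.lam)) v) (top, 0, n) =
      (down (S.ctl p).ch (S.ctl p).ct (S.ctl p).lam)^[k] (top, 0, n) := by
    intro n hn k
    induction k with
    | zero => rfl
    | succ k ih => rw [fo, ih, iterate_succ_apply', hdn _ (hinv n hn k).1]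
  have hds : ∀ n ≤ M, descN M p S.r S.m (pw M 2 S.lam) top n =
      (down (S.ctl p).ch (S.ctl p).ct (S.ctl p).lam)^[top] (top, 0, n) := by
    intro n hn
    rw [descN, itr_eq, hfo n hn]
    intro k _
    rw [hfo n hn]
    obtain ⟨a1, a2, a3⟩ := hinv n hn k
    exact Prod.ext (min_eq_left (a1.trans h8)) (Prod.ext (min_eq_left (a2.trans h7)) (min_eq_left a3))
  let σ0 : St p := fun c _ => if c = 3 then 1 else 0
  have hag : ∀ N ≤ (S.ctl p).lam (top + 1), Ag p len (fo N (fun n => leaf (S.ctl p).ch (S.ctl p).lam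
      (S.prim p) ((down (S.ctl p).ch (S.ctl p).ct (S.ctl p).lam)^[top] (top, 0, n))) σ0)
      (fo N (fun n s => leaf (chF S.r S.m) (lamN M p S.r S.m (pw M 2 S.lam)) (primN S M p len)
        (descN M p S.r S.m (pw M 2 S.lam) top n) s) (mkN M p len fun c _ => if c = 3 then 1 else 0)) := by
    intro N hN
    refine fo_rel (Ag p len) (fun n hn σ s h => ?_) (ag_mk hp.pos hM fun c _ n _ => by simp [σ0])
    have hn' : n ≤ M := by omega
    have hv := (hinv n hn' top).1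
    rw [hds n hn']
    simp only [leaf, hl _ (Nat.succ_le_succ hv), hl _ (hv.trans (Nat.le_succ _))]
    rw [show chF S.r S.m = (S.ctl p).ch from rfl]
    split_ifs
    · refine h.prim S hp2 hM h1 h2 h3 ?_ _ _
      refine lt_of_le_of_lt ((Nat.div_le_div_right hv).trans ?_) h4
      rw [htop, Nat.mul_div_cancel _ (by omega)]
    · exact h
  have hsim : Ag p len (S.run p top 0 σ0) (simN S M p len P) := by
    rw [simN, ← htop, hl _ le_rfl, itr_nat _ _ _ _ fun k hk => (hag k hk).1.le.trans hM, Sys.run,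
      RP.flat _ _ hc top top 0 σ0 le_rfl]
    exact hag _ le_rfl
  rw [htop, Sys.correct h0 hx hw h9 h10 hH hC P 0 σ0 fun _ _ => by simp [σ0]] at hsim
  rw [outN, tabM_eq (by norm_num) (h2M _ h1), ← Nat.mod_eq_of_lt (hx 0 P), ← tab_dig]
  refine tab_congr fun n hn => ?_
  have e := hsim.2 (P % 2) (by omega) n (by omega)
  have e3 : P % 2 ≠ 3 := by omega
  simp only [add, if_true, σ0, e3, if_false, zero_add, sg_zero, one_mul, bit, Nat.zero_div] at e
  rw [rd, digM_of_lt (hsim.1.trans_le hM)]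
  have b1 := dig_lt (b := 2) (by norm_num) (xv 0 P) n
  have b2 := dig_lt hp.pos (simN S M p len P) (4 * n + P % 2)
  rw [ZMod.natCast_eq_natCast_iff', Nat.mod_eq_of_lt (by omega), Nat.mod_eq_of_lt b2] at e
  rw [e]

end Vale.Agent.P312
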