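import Vale.Agent.P312.Num

/-! The numerical program runs in linear space. -/

namespace Vale.Agent.P312

namespace LS

variable {a : ℕ} {α : Type} [Ctx a α] {M b p s k n c len e μ t l x r m E h θ : α → ℕ}

@[fun_prop] theorem digM (hM : LS a M) (hb : LS a b) (hs : LS a s) (hk : LS a k) :
    LS a fun u => digM (M u) (b u) (s u) (k u) := by unfold P312.digM; fun_prop

@[fun_prop] theorem tabM {f : α → ℕ → ℕ} (hM : LS a M) (hb : LS a b) (hn : LS a n)
    (hf : LS a fun v : α × ℕ => f v.1 v.2) : LS a fun u => tabM (M u) (b u) (n u) (f u) := by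
  unfold P312.tabM; fun_prop

@[fun_prop] theorem rd (hM : LS a M) (hp : LS a p) (hs : LS a s) (hc : LS a c) (hn : LS a n) :
    LS a fun u => rd (M u) (p u) (s u) (c u) (n u) := by unfold P312.rd; fun_prop

@[fun_prop] theorem mkN {F : α → ℕ → ℕ → ℕ} (hM : LS a M) (hp : LS a p) (hl : LS a len)
    (hF : LS a fun v : α × ℕ × ℕ => F v.1 v.2.1 v.2.2) :
    LS a fun u => mkN (M u) (p u) (len u) (F u) := by
  unfold P312.mkN; fun_prop

@[fun_prop] theorem addN {f : α → ℕ → ℕ} (hM : LS a M) (hp : LS a p) (hl : LS a len) (hs : LS a s)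
    (hc : LS a c) (hf : LS a fun v : α × ℕ => f v.1 v.2) :
    LS a fun u => addN (M u) (p u) (len u) (s u) (c u) (f u) := by
  unfold P312.addN; fun_prop

@[fun_prop] theorem sclN (hM : LS a M) (hp : LS a p) (hl : LS a len) (hs : LS a s)
    (he : LS a e) (hμ : LS a μ) (ht : LS a t) :
    LS a fun u => sclN (M u) (p u) (len u) (s u) (e u) (μ u) (t u) := by
  unfold P312.sclN; fun_prop

@[fun_prop] theorem setN (hM : LS a M) (hp : LS a p) (hl : LS a len) (hs : LS a s)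
    (he : LS a e) (ht : LS a t) :
    LS a fun u => setN (M u) (p u) (len u) (s u) (e u) (t u) := by
  unfold P312.setN; fun_prop

@[fun_prop] theorem prodP {f : α → ℕ → ℕ} (hp : LS a p) (hn : LS a n)
    (hf : LS a fun v : α × ℕ => f v.1 v.2) : LS a fun u => prodP (p u) (n u) (f u) := by
  unfold P312.prodP; fun_prop

@[fun_prop] theorem eqvN {y : α → ℕ → ℕ} (hM : LS a M) (hp : LS a p) (hn : LS a n) (hx : LS a x)
    (hy : LS a fun v : α × ℕ => y v.1 v.2) : LS a fun u => eqvN (M u) (p u) (n u) (x u) (y u) := by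
  unfold P312.eqvN; fun_prop

@[fun_prop] theorem mleN {g : α → ℕ → ℕ → ℕ} {y y' : α → ℕ → ℕ} (hM : LS a M) (hp : LS a p)
    (hl : LS a l) (hμ : LS a μ) (hg : LS a fun v : α × ℕ × ℕ => g v.1 v.2.1 v.2.2)
    (hy : LS a fun v : α × ℕ => y v.1 v.2) (hy' : LS a fun v : α × ℕ => y' v.1 v.2) :
    LS a fun u => mleN (M u) (p u) (l u) (μ u) (g u) (y u) (y' u) := by
  unfold P312.mleN; fun_prop

@[fun_prop] theorem sgN (hp : LS a p) (hθ : LS a θ) : LS a fun u => sgN (p u) (θ u) := by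
  unfold P312.sgN; fun_prop

@[fun_prop] theorem cntF (hp : LS a p) (hr : LS a r) (hm : LS a m) (hE : LS a E) (hh : LS a h) :
    LS a fun u => cntF (p u) (r u) (m u) (E u) (h u) := by unfold P312.cntF; fun_prop

@[fun_prop] theorem chF (hr : LS a r) (hm : LS a m) (hh : LS a h) (hk : LS a k) :
    LS a fun u => chF (r u) (m u) (h u) (θ u) (k u) := by
  unfold P312.chF; fun_prop (maxSteps := 1000000)

@[fun_prop] theorem ctF (hr : LS a r) (hm : LS a m) (hh : LS a h) (hθ : LS a θ) (hk : LS a k) :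
    LS a fun u => ctF (r u) (m u) (h u) (θ u) (k u) := by
  unfold P312.ctF; fun_prop (maxSteps := 1000000)

@[fun_prop] theorem lamN (hM : LS a M) (hp : LS a p) (hr : LS a r) (hm : LS a m) (hE : LS a E)
    (hh : LS a h) : LS a fun u => lamN (M u) (p u) (r u) (m u) (E u) (h u) := by
  unfold P312.lamN; fun_prop

@[fun_prop] theorem descN (hM : LS a M) (hp : LS a p) (hr : LS a r) (hm : LS a m) (hE : LS a E)
    (ht : LS a t) (hn : LS a n) : LS a fun u => descN (M u) (p u) (r u) (m u) (E u) (t u) (n u) := by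
  unfold P312.descN down; fun_prop

@[fun_prop] theorem val {lam P : α → ℕ} (hl : LS a l) (hlam : LS a lam) (hr : LS a r) (hm : LS a m)
    (hM : LS a M) (hp : LS a p) (hlen : LS a len) (hP : LS a P) :
    LS a fun u => Val (l u) (lam u) (r u) (m u) (M u) (p u) (len u) (P u) := by
  unfold Val; fun_prop

variable {lam P : α → ℕ} {Hf : α → ℕ → ℕ → ℕ → ℕ} {Cf : α → ℕ → ℕ → ℕ → ℕ → Prop}
  {x0 : α → ℕ → ℕ}

theorem primN (hl : LS a l) (hlam : LS a lam) (hr : LS a r) (hm : LS a m)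
    (hH : LS a fun v : α × ℕ × ℕ × ℕ => Hf v.1 v.2.1 v.2.2.1 v.2.2.2)
    (hC : LS a fun v : α × ℕ × ℕ × ℕ × ℕ => Cf v.1 v.2.1 v.2.2.1 v.2.2.2.1 v.2.2.2.2)
    (h0 : LS a fun v : α × ℕ => x0 v.1 v.2) (hM : LS a M) (hp : LS a p) (hlen : LS a len) :
    LS a fun v : α × ℕ × ℕ × ℕ × ℕ => primN ⟨l v.1, lam v.1, r v.1, m v.1, Hf v.1, Cf v.1, x0 v.1⟩
      (M v.1) (p v.1) (len v.1) v.2.1 v.2.2.1 v.2.2.2.1 v.2.2.2.2 := by
  unfold P312.primN
  dsimp only
  fun_prop (maxSteps := 10000000)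

theorem outN (hl : LS a l) (hlam : LS a lam) (hr : LS a r) (hm : LS a m)
    (hH : LS a fun v : α × ℕ × ℕ × ℕ => Hf v.1 v.2.1 v.2.2.1 v.2.2.2)
    (hC : LS a fun v : α × ℕ × ℕ × ℕ × ℕ => Cf v.1 v.2.1 v.2.2.1 v.2.2.2.1 v.2.2.2.2)
    (h0 : LS a fun v : α × ℕ => x0 v.1 v.2) (hM : LS a M) (hp : LS a p) (hlen : LS a len)
    (hP : LS a P) :
    LS a fun u => outN ⟨l u, lam u, r u, m u, Hf u, Cf u, x0 u⟩ (M u) (p u) (len u) (P u) := by
  obtain ⟨pr, h1, h2⟩ : ∃ pr : α → ℕ → ℕ → ℕ → ℕ → ℕ,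
      (LS a fun v : α × ℕ × ℕ × ℕ × ℕ => pr v.1 v.2.1 v.2.2.1 v.2.2.2.1 v.2.2.2.2) ∧ ∀ u,
      P312.primN ⟨l u, lam u, r u, m u, Hf u, Cf u, x0 u⟩ (M u) (p u) (len u) = pr u :=
    ⟨_, primN hl hlam hr hm hH hC h0 hM hp hlen, fun _ => rfl⟩
  unfold P312.outN simN leaf
  simp only [h2]
  fun_prop (maxSteps := 1000000)

end LS

end Vale.Agent.P312
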