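import Vale.Agent.P312.LS

/-! Ranked recursive programs and their flattening. -/

namespace Vale.Agent.P312

open Function

variable {S : Type}

theorem fo_add (n m : ℕ) (f : ℕ → S → S) (s : S) :
    fo (n + m) f s = fo m (fun k => f (n + k)) (fo n f s) := by
  induction m with
  | zero => rfl
  | succ m ih => rw [← add_assoc, fo, ih]; rfl

theorem fo_mul (A B : ℕ) (f : ℕ → S → S) (s : S) :
    fo (A * B) f s = fo A (fun u => fo B fun v => f (u * B + v)) s := by
  induction A with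
  | zero => simp [fo]
  | succ A ih => rw [Nat.succ_mul, fo_add, ih]; rfl

theorem fo_congr {n : ℕ} {f g : ℕ → S → S} (h : ∀ k < n, ∀ s, f k s = g k s) (s : S) :
    fo n f s = fo n g s := by
  induction n with
  | zero => rfl
  | succ n ih => rw [fo, fo, ih fun k hk => h k (by omega), h n (by omega)]

theorem fo_id {n : ℕ} {f : ℕ → S → S} (h : ∀ k < n, ∀ s, f k s = s) (s : S) : fo n f s = s := by
  induction n with
  | zero => rfl
  | succ n ih => rw [fo, ih fun k hk => h k (by omega), h n (by omega)]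

theorem fo_eq {n : ℕ} {f : ℕ → S → S} (T : ℕ → S) (h : ∀ k < n, f k (T k) = T (k + 1)) :
    fo n f (T 0) = T n := by
  induction n with
  | zero => rfl
  | succ n ih => rw [fo, ih fun k hk => h k (by omega), h n (by omega)]

theorem fo_rel {S' : Type} (Rel : S → S' → Prop) {n : ℕ} {f : ℕ → S → S} {g : ℕ → S' → S'}
    (h : ∀ k < n, ∀ s s', Rel s s' → Rel (f k s) (g k s')) {s s'} (h0 : Rel s s') :
    Rel (fo n f s) (fo n g s') := by
  induction n with
  | zero => exact h0
  | succ n ih => exact h n (by omega) _ _ (ih fun k hk => h k (by omega))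

theorem fo_iter (n : ℕ) (f : S → S) (s : S) : fo n (fun _ => f) s = f^[n] s := by
  induction n with
  | zero => rfl
  | succ n ih => rw [fo, ih, iterate_succ_apply']

/-- Control structure of a ranked recursive program. -/
structure RP where
  cnt : ℕ → ℕ
  ch : ℕ → ℕ → ℕ → ℕ
  ct : ℕ → ℕ → ℕ → ℕ

namespace RP

variable (P : RP) (prim : ℕ → ℕ → ℕ → S → S)

def run (h θ : ℕ) : S → S :=
  fo (P.cnt h) fun k s =>
    if _hlt : P.ch h θ k < h then run (P.ch h θ k) (P.ct h θ k) s else prim h θ k s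
termination_by h

/-- The `k`-th item of a node. -/
def item (h θ k : ℕ) (s : S) : S :=
  if P.ch h θ k < h then P.run prim (P.ch h θ k) (P.ct h θ k) s else prim h θ k s

theorem run_eq (h θ : ℕ) (s : S) : P.run prim h θ s = fo (P.cnt h) (P.item prim h θ) s := by
  rw [run]; rfl

def lam (h : ℕ) : ℕ := ∏ i ∈ Finset.range h, P.cnt i

theorem lam_succ (h : ℕ) : P.lam (h + 1) = P.cnt h * P.lam h := by
  rw [lam, Finset.prod_range_succ, mul_comm]; rfl

end RP

/-- One step of the descent. -/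
def down (ch ct : ℕ → ℕ → ℕ → ℕ) (Λ : ℕ → ℕ) (v : ℕ × ℕ × ℕ) : ℕ × ℕ × ℕ :=
  if v.2.2 < Λ (v.1 + 1) ∧ ch v.1 v.2.1 (v.2.2 / Λ v.1) < v.1 then
    (ch v.1 v.2.1 (v.2.2 / Λ v.1), ct v.1 v.2.1 (v.2.2 / Λ v.1), v.2.2 % Λ v.1)
  else v

/-- The primitive instruction at the end of the descent. -/
def leaf (ch : ℕ → ℕ → ℕ → ℕ) (Λ : ℕ → ℕ) (prim : ℕ → ℕ → ℕ → S → S) (v : ℕ × ℕ × ℕ) (s : S) : S :=
  if v.2.2 < Λ (v.1 + 1) ∧ v.1 ≤ ch v.1 v.2.1 (v.2.2 / Λ v.1) ∧ v.2.2 % Λ v.1 = 0 then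
    prim v.1 v.2.1 (v.2.2 / Λ v.1) s
  else s

namespace RP

variable (P : RP) (prim : ℕ → ℕ → ℕ → S → S)

theorem lam_pos (hc : ∀ h, 0 < P.cnt h) (h : ℕ) : 0 < P.lam h := Finset.prod_pos fun i _ => hc i

theorem lam_mono (hc : ∀ h, 0 < P.cnt h) : Monotone P.lam :=
  monotone_nat_of_le_succ fun h => by rw [lam_succ]; exact Nat.le_mul_of_pos_left _ (hc h)

theorem flat (hc : ∀ h, 0 < P.cnt h) : ∀ (h fuel θ : ℕ) (s : S), h ≤ fuel →
    P.run prim h θ s =
      fo (P.lam (h + 1)) (fun n => leaf P.ch P.lam prim ((down P.ch P.ct P.lam)^[fuel] (h, θ, n))) s := by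
  intro h
  induction h using Nat.strong_induction_on with
  | _ h ih =>
  intro fuel θ s hf
  rw [run_eq, lam_succ, fo_mul]
  refine fo_congr (fun k hk s => ?_) s
  have hp := P.lam_pos hc h
  have h1 : ∀ n < P.lam h, k * P.lam h + n < P.lam (h + 1) := fun n hn => by
    rw [lam_succ]; nlinarith
  have h2 : ∀ n < P.lam h, (k * P.lam h + n) / P.lam h = k := fun n hn => by
    rw [mul_comm, Nat.mul_add_div hp, Nat.div_eq_of_lt hn, add_zero]
  have h3 : ∀ n < P.lam h, (k * P.lam h + n) % P.lam h = n := fun n hn => by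
    rw [mul_comm, Nat.mul_add_mod, Nat.mod_eq_of_lt hn]
  rw [item]
  split_ifs with hlt
  · obtain ⟨fuel, rfl⟩ : ∃ f, fuel = f + 1 := ⟨fuel - 1, by omega⟩
    obtain ⟨ex, hex⟩ := Nat.exists_eq_add_of_le (P.lam_mono hc (show P.ch h θ k + 1 ≤ h from hlt))
    rw [fo_congr (g := fun n => leaf P.ch P.lam prim
      ((down P.ch P.ct P.lam)^[fuel] (P.ch h θ k, P.ct h θ k, n))) (fun n hn s => by
        rw [iterate_succ_apply, down, if_pos ⟨h1 n hn, by simpa [h2 n hn] using hlt⟩]
        simp only [h2 n hn, h3 n hn]), hex, fo_add, ← ih _ hlt _ _ _ (by omega), fo_id]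
    intro n _ s
    rw [iterate_fixed (by rw [down, if_neg (by simp)]), leaf, if_neg (by simp)]
  · rw [fo_congr (g := fun n s => if n = 0 then prim h θ k s else s) (fun n hn s => by
        rw [iterate_fixed (by rw [down, if_neg (by simp [h2 n hn, hlt])]), leaf]
        simp only [h1 n hn, h2 n hn, h3 n hn, not_lt.1 hlt, true_and])]
    obtain ⟨ex, hex⟩ := Nat.exists_eq_add_of_le (show 1 ≤ P.lam h from hp)
    rw [hex, fo_add, fo_id (fun n _ s => by simp)]
    rfl

end RP

end Vale.Agent.P312
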