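import Vale.Agent.P312.Mle

/-! The catalytic evaluation program and its correctness. -/

namespace Vale.Agent.P312

open Finset

def cntF (p r m E h : ℕ) : ℕ :=
  if h % (r + 3) = 0 then p * 7 else if h % (r + 3) = 1 then E * ((m + 1) * 3) else p * 5

def chF (r m h _θ k : ℕ) : ℕ :=
  if h % (r + 3) = 0 then
    (if h = 0 ∨ k / 7 = 0 then h else if k % 7 = 1 ∨ k % 7 = 5 then h - (r + 3)
      else if k % 7 = 2 ∨ k % 7 = 4 then h - 1 else h)
  else if h % (r + 3) = 1 then (if k / 3 % (m + 1) < m ∧ k % 3 ≠ 1 then h - 1 else h)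
  else if h % (r + 3) = 2 then h
  else if k / 5 = 0 then (if k = 0 then h - 1 else h)
  else if k % 5 = 1 ∨ k % 5 = 3 then h - 1
  else if k % 5 = 2 then h - h % (r + 3) + 1 else h

def ctF (r m h θ k : ℕ) : ℕ :=
  if h % (r + 3) = 0 then
    (if k % 7 = 1 then 2 * (θ / 2) else if k % 7 = 5 then 2 * (θ / 2) + 1
      else if k % 7 = 2 then 0 else 1)
  else if h % (r + 3) = 1 then 2 * (k / 3 % (m + 1)) + k % 3 / 2
  else if k / 5 = 0 then θ
  else if k % 5 = 1 then 0 else if k % 5 = 3 then 1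
  else 2 * (h % (r + 3) - 3) + (1 - θ % 2)

/-- Data of a segmented computation. -/
structure Sys where
  l : ℕ
  lam : ℕ
  r : ℕ
  m : ℕ
  Hf : ℕ → ℕ → ℕ → ℕ
  Cf : ℕ → ℕ → ℕ → ℕ → Prop
  x0 : ℕ → ℕ

abbrev St (p : ℕ) := ℕ → ℕ → ZMod p

variable {p : ℕ}

def add (σ : St p) (c : ℕ) (f : ℕ → ZMod p) : St p :=
  fun c' n => if c' = c then σ c' n + f n else σ c' n

def scl (σ : St p) (e μ : ℕ) (t : ZMod p) : St p :=
  fun c n => if c = e ∨ (c = 2 ∧ n < μ) then t * σ c n else σ c n

def setp (σ : St p) (J : ℕ) (v : ZMod p) : St p :=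
  fun c n => if c = 3 ∧ n = J then v else σ c n

def sg (p θ : ℕ) : ZMod p := if θ % 2 = 0 then 1 else -1

namespace Sys

variable (S : Sys)

def ctl (p : ℕ) : RP := ⟨cntF p S.r S.m (2 ^ S.lam), chF S.r S.m, ctF S.r S.m⟩

open Classical in
/-- Extension of the consistency check. -/
noncomputable def cm (i j u : ℕ) (y y' : ℕ → ZMod p) : ZMod p :=
  mle S.l (j * S.lam) (fun x w => if S.Cf i x (j + 1) (w + u * 2 ^ (j * S.lam)) then 1 else 0) y y'

/-- Extension of the block update. -/
def hm (i n : ℕ) (y y' : ℕ → ZMod p) : ZMod p :=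
  mle S.l (S.r * S.lam) (fun x w => bit p (S.Hf i x w) n) y y'

noncomputable def prim (p h θ k : ℕ) (σ : St p) : St p :=
  if h % (S.r + 3) = 0 then
    (if h = 0 then
      (if k = 0 then add σ 0 fun n => if n < S.l then sg p θ * bit p (S.x0 (θ / 2)) n else 0 else σ)
    else if k / 7 = 0 then σ
    else if k % 7 = 0 then scl σ ((h / (S.r + 3) + 1) % 2) (S.r * S.lam) (k / 7 : ℕ)
    else if k % 7 = 3 then add σ (h / (S.r + 3) % 2) fun n => if n < S.l then
      sg p (θ + 1) * S.hm (θ / 2) n (σ ((h / (S.r + 3) + 1) % 2)) (σ 2) else 0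
    else scl σ ((h / (S.r + 3) + 1) % 2) (S.r * S.lam) (((k / 7 : ℕ) : ZMod p) ^ (p - 2)))
  else if h % (S.r + 3) = 1 then
    (if k / 3 % (S.m + 1) < S.m then setp σ (h / (S.r + 3)) (σ 3 (h / (S.r + 3)) *
      S.cm (k / 3 % (S.m + 1)) (min (θ / 2) S.r) (k / 3 / (S.m + 1)) (σ (h / (S.r + 3) % 2)) (σ 2))
    else if k % 3 = 0 then setp (add σ 2 fun n =>
      if θ / 2 * S.lam ≤ n ∧ n < θ / 2 * S.lam + S.lam then
        sg p θ * (bit p (k / 3 / (S.m + 1)) (n - θ / 2 * S.lam) * σ 3 (h / (S.r + 3))) else 0)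
      (h / (S.r + 3)) 1
    else σ)
  else if h % (S.r + 3) = 2 ∨ k / 5 = 0 then σ
  else if k % 5 = 0 then scl σ (h / (S.r + 3) % 2) ((h % (S.r + 3) - 3) * S.lam) (k / 5 : ℕ)
  else scl σ (h / (S.r + 3) % 2) ((h % (S.r + 3) - 3) * S.lam) (((k / 5 : ℕ) : ZMod p) ^ (p - 2))

noncomputable def run (p h θ : ℕ) : St p → St p := (S.ctl p).run (S.prim p) h θ

noncomputable def item (p h θ k : ℕ) : St p → St p := (S.ctl p).item (S.prim p) h θ k

theorem run_eq (h θ : ℕ) (σ : St p) :
    S.run p h θ σ = fo (cntF p S.r S.m (2 ^ S.lam) h) (S.item p h θ) σ := RP.run_eq _ _ _ _ _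

theorem item_eq (h θ k : ℕ) (σ : St p) : S.item p h θ k σ =
    if chF S.r S.m h θ k < h then S.run p (chF S.r S.m h θ k) (ctF S.r S.m h θ k) σ
    else S.prim p h θ k σ := rfl

end Sys

theorem rk_mod (J r t : ℕ) (ht : t < r + 3) : (J * (r + 3) + t) % (r + 3) = t := by
  rw [mul_comm, Nat.mul_add_mod, Nat.mod_eq_of_lt ht]

theorem rk_div (J r t : ℕ) (ht : t < r + 3) : (J * (r + 3) + t) / (r + 3) = J := by
  rw [mul_comm, Nat.mul_add_div (by omega), Nat.div_eq_of_lt ht, add_zero]

def Ok (J : ℕ) (σ : St p) : Prop := ∀ J' < J, σ 3 J' = 1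

theorem Ok.add {J : ℕ} {σ : St p} (h : Ok J σ) {c : ℕ} (hc : c ≠ 3) (f : ℕ → ZMod p) :
    Ok J (add σ c f) := fun J' h' => by simp [P312.add, hc.symm, h J' h']

theorem Ok.scl {J : ℕ} {σ : St p} (h : Ok J σ) {e : ℕ} (he : e ≠ 3) (μ : ℕ) (t : ZMod p) :
    Ok J (scl σ e μ t) := fun J' h' => by simp [P312.scl, he.symm, h J' h']

theorem Ok.mono {J J' : ℕ} {σ : St p} (h : Ok J σ) (hJ : J' ≤ J) : Ok J' σ :=
  fun k hk => h k (by omega)

theorem Ok.setp {J : ℕ} {σ : St p} (h : Ok J σ) (v : ZMod p) : Ok J (setp σ J v) :=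
  fun J' h' => by simp [P312.setp, h'.ne, h J' h']

theorem sg_succ (θ : ℕ) : sg p (θ + 1) = - sg p θ := by
  unfold sg; split_ifs <;> first | omega | simp

theorem sg_even (i : ℕ) : sg p (2 * i) = 1 := by simp [sg]

theorem sg_odd (i : ℕ) : sg p (2 * i + 1) = -1 := by rw [sg_succ, sg_even]

theorem sg_zero : sg p 0 = 1 := sg_even 0

theorem sg_one : sg p 1 = -1 := sg_odd 0

theorem sg_flip (j θ : ℕ) : sg p (2 * j + (1 - θ % 2)) = - sg p θ := by
  unfold sg; split_ifs <;> first | omega | simp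

theorem inv_mul_cast [hp : Fact p.Prime] {t : ℕ} (h0 : t ≠ 0) (ht : t < p) :
    (t : ZMod p) ^ (p - 2) * t = 1 := by
  have := hp.out.two_le
  rw [← pow_succ, show p - 2 + 1 = p - 1 by omega]
  refine ZMod.pow_card_sub_one_eq_one ?_
  rw [Ne, ZMod.natCast_eq_zero_iff]
  exact fun h => absurd (Nat.le_of_dvd (by omega) h) (by omega)

namespace Sys

variable (S : Sys) (xv : ℕ → ℕ → ℕ) (wv : ℕ → ℕ)

/-- Specification of the block nodes. -/
def XC (p J : ℕ) : Prop := ∀ θ (σ : St p), Ok J σ →
  S.run p (J * (S.r + 3)) θ σ = add σ (J % 2) fun n => sg p θ * bit p (xv (θ / 2) J) n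

def EC (p J : ℕ) : Prop := ∀ θ (σ : St p), θ / 2 ≤ S.r → Ok (J + 1) σ →
  S.run p (J * (S.r + 3) + 1) θ σ = add σ 2 fun n =>
    if θ / 2 * S.lam ≤ n ∧ n < θ / 2 * S.lam + S.lam then sg p θ * ∑ u ∈ range (2 ^ S.lam),
      bit p u (n - θ / 2 * S.lam) * ∏ i ∈ range S.m,
        S.cm i (θ / 2) u (fun k => σ (J % 2) k + bit p (xv i J) k) (σ 2) else 0

def VC (p J j : ℕ) : Prop := ∀ θ (σ : St p), Ok (J + 1) σ →
  S.run p (J * (S.r + 3) + (j + 2)) θ σ =
    add σ 2 fun n => if n < j * S.lam then sg p θ * bit p (wv J) n else 0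

variable {S xv wv}

theorem x_zero (hp : 0 < p) (h0 : ∀ i, xv i 0 = S.x0 i) (hx : ∀ i, S.x0 i < 2 ^ S.l) :
    S.XC xv p 0 := by
  intro θ σ _
  obtain ⟨n, hn⟩ : ∃ n, p * 7 = 1 + n := ⟨p * 7 - 1, by omega⟩
  rw [zero_mul, run_eq, cntF, if_pos (by simp), hn, fo_add, fo_id]
  · simp only [fo, item_eq, not_lt_zero, if_false, prim, Nat.zero_mod, if_true, h0]
    congr 1
    funext n
    split_ifs with h
    · rfl
    · rw [bit, dig_of_lt ((hx _).trans_le (Nat.pow_le_pow_right (by norm_num) (by omega)))]; simp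
  · intro k _ s
    simp [item_eq, prim]

theorem e_step {J : ℕ} (hX : S.XC xv p J) : S.EC xv p J := by
  intro θ σ hθ hσ
  have hm := rk_mod J S.r 1 (by omega)
  have hd := rk_div J S.r 1 (by omega)
  have he : J % 2 ≠ 3 := by omega
  have he2 : J % 2 ≠ 2 := by omega
  rw [run_eq, cntF, hm, if_neg (by simp), if_pos rfl, fo_mul]
  have idx : ∀ u i s, i < S.m + 1 → s < 3 → (u * ((S.m + 1) * 3) + (i * 3 + s)) % 3 = s ∧
      (u * ((S.m + 1) * 3) + (i * 3 + s)) / 3 % (S.m + 1) = i ∧
      (u * ((S.m + 1) * 3) + (i * 3 + s)) / 3 / (S.m + 1) = u := by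
    intro u i s hi hs
    have e : (u * ((S.m + 1) * 3) + (i * 3 + s)) / 3 = (S.m + 1) * u + i := by
      rw [← mul_assoc, mul_comm (S.m + 1) u]; omega
    rw [e, Nat.mul_add_mod, Nat.mod_eq_of_lt hi, Nat.mul_add_div (by omega), Nat.div_eq_of_lt hi,
      ← mul_assoc]
    omega
  set j := θ / 2 with hj
  let T : ℕ → St p := fun U => add σ 2 fun n =>
    if j * S.lam ≤ n ∧ n < j * S.lam + S.lam then sg p θ * ∑ u ∈ range U,
      bit p u (n - j * S.lam) * ∏ i ∈ range S.m,
        S.cm i j u (fun k => σ (J % 2) k + bit p (xv i J) k) (σ 2) else 0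
  have hT0 : T 0 = σ := by funext c n; simp [T, add]
  rw [← hT0]
  refine (fo_eq T fun u _ => ?_).trans (by rw [hT0])
  have hTo : Ok (J + 1) (T u) := hσ.add (by simp) _
  let T' : ℕ → St p := fun I => setp (T u) J
    (∏ i ∈ range I, S.cm i j u (fun k => σ (J % 2) k + bit p (xv i J) k) (σ 2))
  have hT'0 : T' 0 = T u := by
    funext c n
    simp only [T', setp, range_zero, prod_empty]
    split_ifs with h
    · rw [h.1, h.2, hTo J (by omega)]
    · rfl
  rw [fo_mul, fo, ← hT'0, fo_eq T']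
  · have i0 := idx u S.m 0 (by omega) (by omega)
    have i1 := idx u S.m 1 (by omega) (by omega)
    have i2 := idx u S.m 2 (by omega) (by omega)
    simp only [fo, item_eq, chF, prim, hm, hd, i0, i1, i2, lt_irrefl, false_and, if_false, if_true,
      one_ne_zero, OfNat.ofNat_ne_zero, ← hj]
    funext c n
    simp only [T', T, setp, add, sum_range_succ]
    by_cases h3 : c = 3
    · subst h3
      by_cases hn : n = J
      · simp [hn, hσ J (by omega)]
      · simp [hn]
    · by_cases h2 : c = 2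
      · subst h2
        simp only [if_true, h3, false_and, if_false, and_self]
        split_ifs <;> ring
      · simp [h2, h3]
  · intro i hi
    have i0 := idx u i 0 (by omega) (by omega)
    have i1 := idx u i 1 (by omega) (by omega)
    have i2 := idx u i 2 (by omega) (by omega)
    have o1 : Ok J (T' i) := (hTo.mono (by omega)).setp _
    simp only [fo, item_eq, chF, ctF, prim, hm, hd, i0, i1, i2, hi, lt_irrefl, if_false, if_true,
      one_ne_zero, ne_eq, not_true, not_false_eq_true, and_self, and_false, Nat.add_sub_cancel,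
      Nat.lt_add_one, zero_ne_one, OfNat.ofNat_ne_one, ← hj, min_eq_left hθ, Nat.zero_div,
      Nat.div_self (show 0 < 2 by norm_num)]
    rw [hX _ _ o1, hX _ _ ((o1.add he _).setp _), add_zero, sg_even, sg_odd,
      show 2 * i / 2 = i by omega, show (2 * i + 1) / 2 = i by omega]
    have e1 : S.cm i j u (add (T' i) (J % 2) (fun n => 1 * bit p (xv i J) n) (J % 2))
        (add (T' i) (J % 2) (fun n => 1 * bit p (xv i J) n) 2) =
        S.cm i j u (fun k => σ (J % 2) k + bit p (xv i J) k) (σ 2) := by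
      refine mle_congr _ (fun k _ => ?_) fun k hk => ?_
      · simp [add, T', T, setp, he, he2]
      · simp [add, T', T, setp, he2.symm, hk.not_ge]
    rw [e1]
    funext c n
    simp only [T', setp, add, prod_range_succ]
    by_cases h3 : c = 3
    · subst h3
      by_cases hn : n = J <;> simp [hn, he.symm]
    · by_cases h2 : c = J % 2 <;> simp [h2, h3, he]

theorem v_zero (J : ℕ) : S.VC wv p J 0 := by
  intro θ σ _
  have hm := rk_mod J S.r 2 (by omega)
  rw [run_eq, fo_id]
  · funext c n; simp [add]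
  · intro k _ s
    simp [item_eq, chF, prim, hm]

theorem v_step [hp : Fact p.Prime] {J j : ℕ} (hj : j < S.r) (hE : S.EC xv p J) (hV : S.VC wv p J j)
    (hx : ∀ i, xv i J < 2 ^ S.l) (hdeg : S.m * (S.l + S.r * S.lam) + 1 < p)
    (hC : ∀ u < 2 ^ S.lam, (∀ i < S.m, S.Cf i (xv i J) (j + 1)
      (wv J % 2 ^ (j * S.lam) + u * 2 ^ (j * S.lam))) ↔ u = wv J / 2 ^ (j * S.lam) % 2 ^ S.lam) :
    S.VC wv p J (j + 1) := by
  intro θ σ hσ
  have hm := rk_mod J S.r (j + 1 + 2) (by omega)
  have hd := rk_div J S.r (j + 1 + 2) (by omega)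
  have he : J % 2 ≠ 3 := by omega
  have he2 : J % 2 ≠ 2 := by omega
  rw [run_eq, cntF, hm, if_neg (by simp), if_neg (by simp), fo_mul]
  let σ1 : St p := add σ 2 fun n => if n < j * S.lam then sg p θ * bit p (wv J) n else 0
  let val : ℕ → ZMod p → ZMod p := fun n t => ∑ u ∈ range (2 ^ S.lam),
      bit p u (n - j * S.lam) * ∏ i ∈ range S.m,
        S.cm i j u (fun k => t * σ (J % 2) k + bit p (xv i J) k)
          fun k => t * σ1 2 k + bit p (wv J % 2 ^ (j * S.lam)) k
  let T : ℕ → St p := fun A => if A = 0 then σ else add σ1 2 fun n =>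
    if j * S.lam ≤ n ∧ n < j * S.lam + S.lam then
      - sg p θ * ∑ t ∈ range A, if t = 0 then 0 else val n t else 0
  have hT0 : T 0 = σ := by simp [T]
  have r1 : J * (S.r + 3) + (j + 1 + 2) - 1 = J * (S.r + 3) + (j + 2) := by omega
  have r2 : J * (S.r + 3) + (j + 1 + 2) - (j + 1 + 2) + 1 = J * (S.r + 3) + 1 := by omega
  have l1 : J * (S.r + 3) + (j + 2) < J * (S.r + 3) + (j + 1 + 2) := by omega
  have l2 : J * (S.r + 3) + 1 < J * (S.r + 3) + (j + 1 + 2) := by omega
  have n0 : j + 1 + 2 ≠ 0 := by omega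
  have n1 : j + 1 + 2 ≠ 1 := by omega
  have n2 : j + 1 + 2 ≠ 2 := by omega
  rw [← hT0]
  refine (fo_eq T fun t ht => ?_).trans ?_
  · rcases eq_or_ne t 0 with rfl | ht0
    · simp only [fo, item_eq, chF, ctF, prim, hm, hd, n0, n1, n2, r1, l1, zero_mul, zero_add,
        if_false, if_true, lt_irrefl, Nat.reduceDiv, or_true, one_ne_zero, OfNat.ofNat_ne_zero, hT0]
      rw [hV _ _ hσ]
      funext c n; simp [T, add, σ1]
    · have d : ∀ s < 5, (t * 5 + s) / 5 = t ∧ (t * 5 + s) % 5 = s := fun s hs => by omega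
      have d0 := d 0 (by omega)
      have d1 := d 1 (by omega)
      have d2 := d 2 (by omega)
      have d3 := d 3 (by omega)
      have d4 := d 4 (by omega)
      have oT : Ok (J + 1) (T t) := by
        simp only [T, ht0, if_false]
        exact (hσ.add (by simp) _).add (by simp) _
      have o1 := oT.scl he (j * S.lam) (t : ZMod p)
      simp only [fo, item_eq, chF, ctF, prim, hm, hd, n0, n1, n2, r1, r2, l1, l2, d0, d1, d2, d3, d4,
        ht0, if_false, if_true, lt_irrefl, or_true, true_or, or_self, one_ne_zero, zero_ne_one,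
        OfNat.ofNat_ne_zero, OfNat.zero_ne_ofNat, OfNat.ofNat_ne_one, OfNat.one_ne_ofNat,
        Nat.reduceEqDiff, show j + 1 + 2 - 3 = j by omega]
      rw [hV _ _ o1, hE _ _ (by omega) (o1.add (by simp) _),
        hV _ _ ((o1.add (by simp) _).add (by simp) _), sg_flip,
        show (2 * j + (1 - θ % 2)) / 2 = j by omega]
      have e1 : ∀ i u, S.cm i j u (fun k => add (scl (T t) (J % 2) (j * S.lam) t) 2
          (fun n => if n < j * S.lam then sg p 0 * bit p (wv J) n else 0) (J % 2) k + bit p (xv i J) k)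
          (add (scl (T t) (J % 2) (j * S.lam) t) 2
          (fun n => if n < j * S.lam then sg p 0 * bit p (wv J) n else 0) 2) =
          S.cm i j u (fun k => (t : ZMod p) * σ (J % 2) k + bit p (xv i J) k)
          fun k => (t : ZMod p) * σ1 2 k + bit p (wv J % 2 ^ (j * S.lam)) k := fun i u => by
        refine mle_congr _ (fun k _ => ?_) fun k hk => ?_
        · simp [add, T, scl, σ1, ht0, he2]
        · simp [add, T, scl, ht0, hk, hk.not_ge, sg, bit, dig_mod_pow (show 0 < 2 by norm_num) _ hk]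
      simp only [e1]
      have inv := inv_mul_cast ht0 ht
      funext c n
      simp only [T, ht0, add, scl, sum_range_succ, if_false, Nat.add_eq_zero_iff, one_ne_zero,
        and_false, sg_zero, sg_one, val]
      by_cases h2 : c = 2
      · subst h2
        simp only [he2.symm, if_true, true_and, false_or]
        by_cases hn : n < j * S.lam
        · simp only [hn, hn.not_ge, if_true, false_and, if_false]
          linear_combination (σ1 2 n) * inv
        · simp only [hn, if_false]
          split_ifs <;> ring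
      · simp only [h2, if_false, false_and, or_false]
        split_ifs
        · linear_combination (σ1 c n) * inv
        · rfl
  · have hdg : ∀ n, Deg (S.m * (S.l + S.r * S.lam)) (val n) := fun n => Deg.sum fun u _ => by
      have := (Deg.const (bit p u (n - j * S.lam)) 0).mul (Deg.prod (n := S.m)
        (f := fun i t => S.cm i j u (fun k => t * σ (J % 2) k + bit p (xv i J) k)
          fun k => t * σ1 2 k + bit p (wv J % 2 ^ (j * S.lam)) k) fun i _ =>
          (Deg.mle _ _ _ _ _ _ _).mono (Nat.add_le_add_left (Nat.mul_le_mul_right S.lam hj.le) _))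
      rwa [zero_add] at this
    have hv : ∀ n, j * S.lam ≤ n → n < j * S.lam + S.lam → val n 0 = bit p (wv J) n := by
      intro n h1 h2
      have hu : wv J / 2 ^ (j * S.lam) % 2 ^ S.lam < 2 ^ S.lam := Nat.mod_lt _ (by positivity)
      have e : ∀ u < 2 ^ S.lam, ∏ i ∈ range S.m, S.cm i j u
          (fun k => 0 * σ (J % 2) k + bit p (xv i J) k)
          (fun k => 0 * σ1 2 k + bit p (wv J % 2 ^ (j * S.lam)) k) =
          if u = wv J / 2 ^ (j * S.lam) % 2 ^ S.lam then 1 else 0 := by
        intro u hu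
        classical
        simp only [zero_mul, zero_add, cm]
        rw [prod_congr rfl fun i _ => mle_bit _ (hx i) (Nat.mod_lt _ (by positivity)),
          prod_ite_zero, prod_const_one]
        simp only [mem_range, hC u hu]
      simp only [val]
      rw [sum_congr rfl fun u hu => by rw [e u (mem_range.1 hu)], sum_eq_single_of_mem _ (mem_range.2 hu)
        fun u _ hne => by rw [if_neg hne, mul_zero], if_pos rfl, mul_one, bit, bit,
        dig_mod_pow (by norm_num) _ (by omega), dig_div_pow, Nat.add_sub_cancel' h1]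
    funext c n
    simp only [T, hp.out.ne_zero, if_false, add, σ1, hT0]
    by_cases h2 : c = 2
    · subst h2
      simp only [if_true, (hdg n).interp hdeg, Nat.succ_mul]
      by_cases hn : n < j * S.lam
      · simp [hn, hn.not_ge, show n < j * S.lam + S.lam by omega]
      · by_cases hn' : n < j * S.lam + S.lam
        · simp [hn, hn', not_lt.1 hn, hv n (not_lt.1 hn) hn']
        · simp [hn, hn']
    · simp [h2]

theorem x_step [hp : Fact p.Prime] {J : ℕ} (hX : S.XC xv p J) (hV : S.VC wv p J S.r)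
    (hx : ∀ i, xv i J < 2 ^ S.l) (hx' : ∀ i, xv i (J + 1) < 2 ^ S.l) (hw : wv J < 2 ^ (S.r * S.lam))
    (hdeg : S.l + S.r * S.lam + 1 < p) (hH : ∀ i, xv i (J + 1) = S.Hf i (xv i J) (wv J)) :
    S.XC xv p (J + 1) := by
  intro θ σ hσ
  have hm : (J + 1) * (S.r + 3) % (S.r + 3) = 0 := by simp
  have hd : (J + 1) * (S.r + 3) / (S.r + 3) = J + 1 := by simp
  have he : J % 2 ≠ 3 := by omega
  have he2 : J % 2 ≠ 2 := by omega
  have hf : (J + 1) % 2 ≠ 3 := by omega
  have hf2 : (J + 1) % 2 ≠ 2 := by omega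
  have hef : J % 2 ≠ (J + 1) % 2 := by omega
  rw [run_eq, cntF, hm, if_pos rfl, fo_mul]
  set i := θ / 2 with hi
  let val : ℕ → ZMod p → ZMod p := fun n t => S.hm i n
    (fun k => t * σ (J % 2) k + bit p (xv i J) k) fun k => t * σ 2 k + bit p (wv J) k
  let T : ℕ → St p := fun A => add σ ((J + 1) % 2) fun n =>
    if n < S.l then - sg p θ * ∑ t ∈ range A, if t = 0 then 0 else val n t else 0
  have hT0 : T 0 = σ := by funext c n; simp [T, add]
  have r0 : (J + 1) * (S.r + 3) ≠ 0 := by positivity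
  have r1 : (J + 1) * (S.r + 3) - 1 = J * (S.r + 3) + (S.r + 2) := by rw [Nat.succ_mul]; omega
  have r2 : (J + 1) * (S.r + 3) - (S.r + 3) = J * (S.r + 3) := by rw [Nat.succ_mul]; omega
  have l1 : J * (S.r + 3) + (S.r + 2) < (J + 1) * (S.r + 3) := by rw [Nat.succ_mul]; omega
  have l2 : J * (S.r + 3) < (J + 1) * (S.r + 3) := by omega
  have r3 : (J + 1 + 1) % 2 = J % 2 := by omega
  rw [← hT0]
  refine (fo_eq T fun t ht => ?_).trans ?_
  · rcases eq_or_ne t 0 with rfl | ht0
    · rw [fo_id, hT0]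
      · funext c n; simp [T, add]
      · intro k hk s
        simp [item_eq, chF, prim, hm, r0, Nat.div_eq_of_lt hk]
    · have d : ∀ s < 7, (t * 7 + s) / 7 = t ∧ (t * 7 + s) % 7 = s := fun s hs => by omega
      have d0 := d 0 (by omega)
      have d1 := d 1 (by omega)
      have d2 := d 2 (by omega)
      have d3 := d 3 (by omega)
      have d4 := d 4 (by omega)
      have d5 := d 5 (by omega)
      have d6 := d 6 (by omega)
      have oT : Ok (J + 1) (T t) := hσ.add hf _
      have o1 := oT.scl he (S.r * S.lam) (t : ZMod p)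
      simp only [fo, item_eq, chF, ctF, prim, hm, hd, r0, r1, r2, r3, l1, l2, d0, d1, d2, d3, d4, d5,
        d6, ht0, if_false, if_true, lt_irrefl, or_true, true_or, or_self, one_ne_zero, zero_ne_one,
        OfNat.ofNat_ne_zero, OfNat.zero_ne_ofNat, OfNat.ofNat_ne_one, OfNat.one_ne_ofNat,
        Nat.reduceEqDiff, ← hi]
      rw [hX _ _ (o1.mono (by omega)), hV _ _ (o1.add he _),
        hV _ _ (((o1.add he _).add (by simp) _).add hf _),
        hX _ _ (((((o1.add he _).add (by simp) _).add hf _).add (by simp) _).mono (by omega)),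
        sg_even, sg_odd, sg_succ θ, show 2 * i / 2 = i by omega, show (2 * i + 1) / 2 = i by omega]
      have e1 : ∀ n, S.hm i n (add (add (scl (T t) (J % 2) (S.r * S.lam) t) (J % 2)
          fun n => 1 * bit p (xv i J) n) 2
          (fun n => if n < S.r * S.lam then sg p 0 * bit p (wv J) n else 0) (J % 2))
          (add (add (scl (T t) (J % 2) (S.r * S.lam) t) (J % 2) fun n => 1 * bit p (xv i J) n) 2
          (fun n => if n < S.r * S.lam then sg p 0 * bit p (wv J) n else 0) 2) = val n t := fun n => by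
        refine mle_congr _ (fun k _ => ?_) fun k hk => ?_
        · simp [add, T, scl, he2, hef]
        · simp [add, T, scl, hk, sg, he2.symm, hf2.symm]
      simp only [e1]
      have inv := inv_mul_cast ht0 ht
      funext c n
      simp only [T, ht0, add, scl, sum_range_succ, if_false, sg_zero, sg_one]
      by_cases h2 : c = 2
      · subst h2
        simp only [he2.symm, hf2.symm, if_true, true_and, false_or, if_false]
        by_cases hn : n < S.r * S.lam
        · simp only [hn, if_true]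
          linear_combination (σ 2 n) * inv
        · simp [hn]
      · by_cases h3 : c = J % 2
        · subst h3
          simp only [h2, hef, if_false, if_true, true_or]
          linear_combination (σ (J % 2) n) * inv
        · simp only [h2, h3, if_false, false_and, or_false]
          split_ifs <;> ring
  · have hv : ∀ n, val n 0 = bit p (xv i (J + 1)) n := fun n => by
      simp only [val, zero_mul, zero_add, Sys.hm]
      rw [mle_bit _ (hx i) hw, hH]
    funext c n
    simp only [T, add, hT0]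
    rw [Deg.interp (f := val n) (Deg.mle _ _ _ _ _ _ _) hdeg, hv]
    split_ifs with h1 h2
    · ring
    · rw [bit, dig_of_lt ((hx' _).trans_le (Nat.pow_le_pow_right (by norm_num) (by omega)))]; simp
    · rfl

theorem correct [hp : Fact p.Prime] (h0 : ∀ i, xv i 0 = S.x0 i) (hx : ∀ i J, xv i J < 2 ^ S.l)
    (hw : ∀ J, wv J < 2 ^ (S.r * S.lam)) (hm : 0 < S.m)
    (hdeg : S.m * (S.l + S.r * S.lam) + 1 < p)
    (hH : ∀ i J, xv i (J + 1) = S.Hf i (xv i J) (wv J))
    (hC : ∀ J, ∀ j < S.r, ∀ u < 2 ^ S.lam, (∀ i < S.m, S.Cf i (xv i J) (j + 1)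
      (wv J % 2 ^ (j * S.lam) + u * 2 ^ (j * S.lam))) ↔ u = wv J / 2 ^ (j * S.lam) % 2 ^ S.lam) :
    ∀ J, S.XC xv p J := by
  intro J
  induction J with
  | zero => exact x_zero hp.out.pos h0 fun i => h0 i ▸ hx i 0
  | succ J ih =>
    have hV : ∀ j ≤ S.r, S.VC wv p J j := by
      intro j
      induction j with
      | zero => exact fun _ => v_zero J
      | succ j ihj =>
        exact fun hj => v_step hj (e_step ih) (ihj (by omega)) (fun i => hx i J) hdeg (hC J j hj)
    exact x_step ih (hV _ le_rfl) (fun i => hx i J) (fun i => hx i _) (hw J)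
      ((Nat.succ_le_succ (Nat.le_mul_of_pos_left _ hm)).trans_lt hdeg)
      fun i => hH i J

end Sys

end Vale.Agent.P312
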