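import Vale.Agent.P312.NumLS

/-! Block decomposition of a one-tape computation. -/

namespace Vale.Agent.P312

open Finset Function

variable {a : ℕ}

def tb (K : ℕ) (T : ℕ → ℕ) (z : ℕ) : ℕ := if z < K then T z else 0

@[fun_prop] theorem LS.tb {α : Type} [Ctx a α] {f : α → ℕ} (K : ℕ) (T : ℕ → ℕ) (hf : LS a f) :
    LS a fun u => tb K T (f u) := LS.table T K hf

def Move.code : Move → ℕ
  | Move.left => 0
  | Move.stay => 1
  | Move.right => 2

theorem Move.code_eq (d : Move) : (d.code : ℤ) = d.int + 1 := by cases d <;> rfl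

theorem Move.code_le (d : Move) : d.code ≤ 2 := by cases d <;> simp [Move.code]

def ocode : Option Bool → ℕ
  | none => 0
  | some false => 1
  | some true => 2

namespace TM1

variable (M : TM1 a)

def finq (n : ℕ) : Fin M.nq := if h : n < M.nq then ⟨n, h⟩ else M.start
def fing (n : ℕ) : Fin M.ng := if h : n < M.ng then ⟨n, h⟩ else M.blank
def dl (z : ℕ) := M.δ (M.finq (z % M.nq)) (M.fing (z / M.nq))
def dq (q g : ℕ) : ℕ := tb (M.nq * M.ng) (fun z => (M.dl z).1) (q + M.nq * g)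
def dw (q g : ℕ) : ℕ := tb (M.nq * M.ng) (fun z => (M.dl z).2.1) (q + M.nq * g)
def dm (q g : ℕ) : ℕ := tb (M.nq * M.ng) (fun z => (M.dl z).2.2.code) (q + M.nq * g)
def oc (q : ℕ) : ℕ := tb M.nq (fun z => ocode (M.out (M.finq z))) q
def sy (c : ℕ) : ℕ :=
  tb (a + 2) (fun c => if h : 2 ≤ c ∧ c - 2 < a then M.sym ⟨c - 2, h.2⟩ else M.blank) c

theorem idx_lt (q : Fin M.nq) (g : Fin M.ng) : q + M.nq * g < M.nq * M.ng := by
  have := q.2
  have := g.2
  nlinarith

theorem dl_eq (q : Fin M.nq) (g : Fin M.ng) : M.dl (q + M.nq * g) = M.δ q g := by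
  have hq := q.2
  rw [dl, Nat.add_mul_mod_self_left, Nat.mod_eq_of_lt hq, Nat.add_mul_div_left _ _ (by omega),
    Nat.div_eq_of_lt hq, zero_add]
  simp [finq, fing]

theorem dq_eq (q : Fin M.nq) (g : Fin M.ng) : M.dq q g = (M.δ q g).1 := by
  rw [dq, tb, if_pos (M.idx_lt q g), dl_eq]

theorem dw_eq (q : Fin M.nq) (g : Fin M.ng) : M.dw q g = (M.δ q g).2.1 := by
  rw [dw, tb, if_pos (M.idx_lt q g), dl_eq]

theorem dm_eq (q : Fin M.nq) (g : Fin M.ng) : M.dm q g = (M.δ q g).2.2.code := by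
  rw [dm, tb, if_pos (M.idx_lt q g), dl_eq]

theorem oc_eq (q : Fin M.nq) : M.oc q = ocode (M.out q) := by
  rw [oc, tb, if_pos q.2]; simp [finq]

theorem sy_letter (x : List (Fin a)) (i : ℕ) :
    M.sy (letter x (i + 1)) = ((x.map M.sym)[i]?).getD M.blank := by
  rw [letter, inSym, if_neg (by omega)]
  rcases lt_or_ge i x.length with h | h
  · rw [min_eq_left (by omega), Nat.add_sub_cancel, List.getElem?_map, List.getElem?_eq_getElem h]
    have := (x[i]).2
    rw [show syc (some (some x[i])) = x[i].1 + 2 from rfl, sy, tb, if_pos (by omega),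
      dif_pos ⟨by omega, by omega⟩]
    simp
  · rw [min_eq_right (by omega), Nat.add_sub_cancel, List.getElem?_eq_none le_rfl,
      List.getElem?_eq_none (by simpa using h)]
    simp [syc, sy, tb]

def lstep (Mx ρ b m i y : ℕ) : ℕ :=
  if M.oc (y % pw Mx 2 ρ % M.nq) = 0 ∧ 1 ≤ y % pw Mx 2 ρ / M.nq ∧
      y % pw Mx 2 ρ / M.nq + 1 < m * b ∧ y % pw Mx 2 ρ / M.nq / b = i then
    M.dq (y % pw Mx 2 ρ % M.nq) (digM Mx M.ng (y / pw Mx 2 ρ) (y % pw Mx 2 ρ / M.nq % b)) +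
      M.nq * (y % pw Mx 2 ρ / M.nq + M.dm (y % pw Mx 2 ρ % M.nq)
        (digM Mx M.ng (y / pw Mx 2 ρ) (y % pw Mx 2 ρ / M.nq % b)) - 1) +
      pw Mx 2 ρ * tabM Mx M.ng b fun k => if k = y % pw Mx 2 ρ / M.nq % b then
        M.dw (y % pw Mx 2 ρ % M.nq) (digM Mx M.ng (y / pw Mx 2 ρ) (y % pw Mx 2 ρ / M.nq % b))
        else digM Mx M.ng (y / pw Mx 2 ρ) k
  else y

def seg (Mx ρ b m T i y : ℕ) : ℕ := itr Mx y (fun _ y => M.lstep Mx ρ b m i y) T

def pre (Mx ρ b m T i y w s : ℕ) : ℕ :=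
  itr Mx y (fun s y => digM Mx (pw Mx 2 ρ) w s + pw Mx 2 ρ * (M.seg Mx ρ b m T i y / pw Mx 2 ρ)) s

def chk (Mx ρ b m T i y n w : ℕ) : Prop :=
  AllB n fun s => M.pre Mx ρ b m T i y w s % pw Mx 2 ρ / M.nq / b ≠ i ∨
    M.seg Mx ρ b m T i (M.pre Mx ρ b m T i y w s) % pw Mx 2 ρ = digM Mx (pw Mx 2 ρ) w s

def ini (x : List (Fin a)) (Mx ρ b sh i : ℕ) : ℕ :=
  M.start + M.nq * sh + pw Mx 2 ρ * tabM Mx M.ng b fun k =>
    if sh ≤ i * b + k then M.sy (letter x (i * b + k - sh + 1)) else M.blank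

section ls

variable {α : Type} [Ctx a α] {Mx ρ b m T i y w s n q g sh : α → ℕ}

@[fun_prop] theorem ls_dq (hq : LS a q) (hg : LS a g) : LS a fun u => M.dq (q u) (g u) := by
  unfold dq; fun_prop

@[fun_prop] theorem ls_dw (hq : LS a q) (hg : LS a g) : LS a fun u => M.dw (q u) (g u) := by
  unfold dw; fun_prop

@[fun_prop] theorem ls_dm (hq : LS a q) (hg : LS a g) : LS a fun u => M.dm (q u) (g u) := by
  unfold dm; fun_prop

@[fun_prop] theorem ls_oc (hq : LS a q) : LS a fun u => M.oc (q u) := by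
  unfold oc; fun_prop

@[fun_prop] theorem ls_sy (hq : LS a q) : LS a fun u => M.sy (q u) := by
  unfold sy; fun_prop

@[fun_prop] theorem ls_lstep (h1 : LS a Mx) (h2 : LS a ρ) (h3 : LS a b) (h4 : LS a m) (h5 : LS a i)
    (h6 : LS a y) : LS a fun u => M.lstep (Mx u) (ρ u) (b u) (m u) (i u) (y u) := by
  unfold lstep; fun_prop (maxSteps := 1000000)

@[fun_prop] theorem ls_seg (h1 : LS a Mx) (h2 : LS a ρ) (h3 : LS a b) (h4 : LS a m) (h7 : LS a T)
    (h5 : LS a i) (h6 : LS a y) : LS a fun u => M.seg (Mx u) (ρ u) (b u) (m u) (T u) (i u) (y u) := by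
  unfold seg; fun_prop

@[fun_prop] theorem ls_pre (h1 : LS a Mx) (h2 : LS a ρ) (h3 : LS a b) (h4 : LS a m) (h7 : LS a T)
    (h5 : LS a i) (h6 : LS a y) (h8 : LS a w) (h9 : LS a s) :
    LS a fun u => M.pre (Mx u) (ρ u) (b u) (m u) (T u) (i u) (y u) (w u) (s u) := by
  unfold pre; fun_prop

@[fun_prop] theorem ls_chk (h1 : LS a Mx) (h2 : LS a ρ) (h3 : LS a b) (h4 : LS a m) (h7 : LS a T)
    (h5 : LS a i) (h6 : LS a y) (h9 : LS a n) (h8 : LS a w) :
    LS a fun u => M.chk (Mx u) (ρ u) (b u) (m u) (T u) (i u) (y u) (n u) (w u) := by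
  unfold chk; fun_prop

@[fun_prop] theorem ls_ini {x : α → List (Fin a)} (hx : LS a x) (h1 : LS a Mx) (h2 : LS a ρ)
    (h3 : LS a b) (h4 : LS a sh) (h5 : LS a i) :
    LS a fun u => M.ini (x u) (Mx u) (ρ u) (b u) (sh u) (i u) := by
  unfold ini; fun_prop

end ls

variable {M}

def hdp (sh : ℕ) (c : Cfg1 M) : ℕ := (c.head + sh).toNat

def Inr (sh b m : ℕ) (c : Cfg1 M) : Prop := 0 ≤ c.head + sh ∧ hdp sh c < m * b

def gstep (sh b m i : ℕ) (c : Cfg1 M) : Cfg1 M :=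
  if 1 ≤ hdp sh c ∧ hdp sh c + 1 < m * b ∧ hdp sh c / b = i then step1 M c else c

def rcd (sh : ℕ) (c : Cfg1 M) : ℕ := c.state + M.nq * hdp sh c

def blkc (sh b i : ℕ) (c : Cfg1 M) : ℕ := tab M.ng b fun k => c.tape ((i * b + k : ℕ) - (sh : ℤ))

def code (sh ρ b i : ℕ) (c : Cfg1 M) : ℕ := rcd sh c + 2 ^ ρ * blkc sh b i c

def gseg (sh b m T : ℕ) (c : Cfg1 M) : Cfg1 M := (gstep sh b m (hdp sh c / b))^[T] c

variable {sh ρ b m T Mx l i : ℕ} {c : Cfg1 M}

theorem ng_pos : 0 < M.ng := M.blank.pos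

theorem hdp_step (h : 1 ≤ hdp sh c) (ho : M.out c.state = none) :
    0 ≤ (step1 M c).head + sh ∧
      hdp sh (step1 M c) = hdp sh c + (M.δ c.state (c.tape c.head)).2.2.code - 1 := by
  have := Move.code_eq (M.δ c.state (c.tape c.head)).2.2
  simp only [hdp, step1, if_pos ho] at h ⊢
  omega

theorem Inr.gstep (h : Inr sh b m c) : Inr sh b m (gstep sh b m i c) := by
  unfold TM1.gstep
  split_ifs with h1
  · by_cases ho : M.out c.state = none
    · have := hdp_step h1.1 ho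
      have := Move.code_le (M.δ c.state (c.tape c.head)).2.2
      exact ⟨by omega, by omega⟩
    · rw [step1, if_neg ho]; exact h
  · exact h

theorem Inr.iter (h : Inr sh b m c) (k : ℕ) : Inr sh b m ((TM1.gstep sh b m i)^[k] c) := by
  induction k with
  | zero => exact h
  | succ k ih => rw [iterate_succ_apply']; exact ih.gstep

theorem Inr.rcd_lt (h : Inr sh b m c) (hR : M.nq * (m * b) ≤ 2 ^ ρ) : rcd sh c < 2 ^ ρ := by
  have := c.state.2
  have := h.2
  unfold rcd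
  nlinarith

theorem blkc_lt : blkc sh b i c < M.ng ^ b := tab_lt ng_pos _ _

theorem Inr.code_lt (h : Inr sh b m c) (hR : M.nq * (m * b) ≤ 2 ^ ρ) (hl : 2 ^ ρ * M.ng ^ b ≤ 2 ^ l) :
    code sh ρ b i c < 2 ^ l := by
  have := h.rcd_lt hR
  have := blkc_lt (sh := sh) (b := b) (i := i) (c := c)
  unfold code
  nlinarith

theorem Inr.code_mod (h : Inr sh b m c) (hR : M.nq * (m * b) ≤ 2 ^ ρ) :
    code sh ρ b i c % 2 ^ ρ = rcd sh c := by
  rw [code, Nat.add_mul_mod_self_left, Nat.mod_eq_of_lt (h.rcd_lt hR)]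

theorem Inr.code_div (h : Inr sh b m c) (hR : M.nq * (m * b) ≤ 2 ^ ρ) :
    code sh ρ b i c / 2 ^ ρ = blkc sh b i c := by
  rw [code, Nat.add_mul_div_left _ _ (by positivity), Nat.div_eq_of_lt (h.rcd_lt hR), zero_add]

theorem rcd_mod : rcd sh c % M.nq = c.state := by
  rw [rcd, Nat.add_mul_mod_self_left, Nat.mod_eq_of_lt c.state.2]

theorem rcd_div : rcd sh c / M.nq = hdp sh c := by
  rw [rcd, Nat.add_mul_div_left _ _ c.state.pos, Nat.div_eq_of_lt c.state.2, zero_add]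

theorem dig_blkc {k : ℕ} (hk : k < b) :
    dig M.ng (blkc sh b i c) k = c.tape ((i * b + k : ℕ) - (sh : ℤ)) := by
  rw [blkc, dig_tab ng_pos _ hk, Nat.mod_eq_of_lt (Fin.is_lt _)]

theorem Inr.head_eq (h : Inr sh b m c) {i k : ℕ} (hk : k < b) :
    ((i * b + k : ℕ) : ℤ) - sh = c.head ↔ hdp sh c / b = i ∧ k = hdp sh c % b := by
  have h1 := h.1
  have e : ((i * b + k : ℕ) : ℤ) - sh = c.head ↔ hdp sh c = i * b + k := by
    unfold hdp; omega
  rw [e]
  constructor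
  · intro h2
    rw [h2, mul_comm, Nat.mul_add_div (by omega), Nat.mul_add_mod, Nat.div_eq_of_lt hk,
      Nat.mod_eq_of_lt hk]
    simp
  · rintro ⟨rfl, rfl⟩
    exact (Nat.div_add_mod' _ _).symm

theorem Inr.lstep (h : Inr sh b m c) (hR : M.nq * (m * b) ≤ 2 ^ ρ) (h1 : 2 ^ ρ ≤ Mx)
    (h2 : M.ng ^ b ≤ Mx) : M.lstep Mx ρ b m i (code sh ρ b i c) = code sh ρ b i (TM1.gstep sh b m i c) := by
  have hb : 0 < b := Nat.pos_of_mul_pos_left (Nat.zero_lt_of_lt h.2)
  have hd : ∀ k, digM Mx M.ng (blkc sh b i c) k = dig M.ng (blkc sh b i c) k :=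
    digM_of_lt (blkc_lt.trans_le h2)
  simp only [TM1.lstep, pw_eq h1, h.code_mod hR, h.code_div hR, rcd_mod, rcd_div, oc_eq, hd,
    TM1.gstep]
  by_cases h3 : 1 ≤ hdp sh c ∧ hdp sh c + 1 < m * b ∧ hdp sh c / b = i
  · by_cases ho : M.out c.state = none
    · have hk := Nat.mod_lt (hdp sh c) hb
      rw [if_pos ⟨by rw [ho]; rfl, h3⟩, if_pos h3, dig_blkc hk, (h.head_eq hk).2 ⟨h3.2.2, rfl⟩,
        dq_eq, dm_eq, dw_eq, code, rcd, (hdp_step h3.1 ho).2, tabM_eq ng_pos h2]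
      congr 2
      · simp [step1, ho]
      · refine tab_congr fun k hk' => ?_
        simp only [step1, if_pos ho, update_apply, h.head_eq hk', h3.2.2, true_and, dig_blkc hk']
        split_ifs <;> rfl
    · rw [if_neg, if_pos h3, step1, if_neg ho]
      rintro ⟨h4, -⟩
      rcases hh : M.out c.state with _ | _ | _ <;> simp_all [ocode]
  · rw [if_neg fun h4 => h3 h4.2, if_neg h3]

theorem Inr.blkc_gstep (h : Inr sh b m c) {i0 : ℕ} (hi : i ≠ i0) :
    blkc sh b i (TM1.gstep sh b m i0 c) = blkc sh b i c := by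
  unfold TM1.gstep
  split_ifs with h1
  · refine tab_congr fun k hk => ?_
    unfold step1
    split_ifs
    · dsimp only
      rw [update_of_ne fun h2 => hi (((h.head_eq hk).1 h2).1.symm.trans h1.2.2)]
    · rfl
  · rfl

section seg

variable (hR : M.nq * (m * b) ≤ 2 ^ ρ) (hl : 2 ^ ρ * M.ng ^ b ≤ 2 ^ l) (hM : 2 ^ l ≤ Mx)
include hR hl hM

omit hR in
theorem pow_le1 : 2 ^ ρ ≤ Mx :=
  (Nat.le_mul_of_pos_right _ (Nat.pow_pos ng_pos)).trans (hl.trans hM)

omit hR in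
theorem pow_le2 : M.ng ^ b ≤ Mx := (Nat.le_mul_of_pos_left _ (by positivity)).trans (hl.trans hM)

theorem Inr.seg (h : Inr sh b m c) :
    M.seg Mx ρ b m T i (code sh ρ b i c) = code sh ρ b i ((TM1.gstep sh b m i)^[T] c) := by
  have e : ∀ k, fo k (fun _ y => M.lstep Mx ρ b m i y) (code sh ρ b i c) =
      code sh ρ b i ((TM1.gstep sh b m i)^[k] c) := by
    intro k
    induction k with
    | zero => rfl
    | succ k ih => rw [fo, ih, (h.iter k).lstep hR (pow_le1 hl hM) (pow_le2 hl hM), iterate_succ_apply']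
  rw [TM1.seg, itr_nat, e]
  intro k _
  rw [e]
  exact ((h.iter k).code_lt hR hl).le.trans hM

theorem Inr.seg_div (h : Inr sh b m c) :
    M.seg Mx ρ b m T i (code sh ρ b i c) / 2 ^ ρ = blkc sh b i (gseg sh b m T c) := by
  rw [h.seg hR hl hM, (h.iter T).code_div hR, gseg]
  rcases eq_or_ne i (hdp sh c / b) with rfl | hi
  · rfl
  · rw [iterate_fixed (by rw [TM1.gstep, if_neg fun h1 => hi h1.2.2.symm])]
    induction T with
    | zero => rfl
    | succ k ih => rw [iterate_succ_apply', (h.iter k).blkc_gstep hi, ← ih]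

theorem Inr.seg_mod (h : Inr sh b m c) (hi : hdp sh c / b = i) :
    M.seg Mx ρ b m T i (code sh ρ b i c) % 2 ^ ρ = rcd sh (gseg sh b m T c) := by
  rw [h.seg hR hl hM, (h.iter T).code_mod hR, gseg, hi]

omit hR hl hM in
theorem Inr.gsegs (h : Inr sh b m c) (s : ℕ) : Inr sh b m ((gseg sh b m T)^[s] c) := by
  induction s with
  | zero => exact h
  | succ k ih => rw [iterate_succ_apply']; exact ih.iter T

theorem Inr.pre (h : Inr sh b m c) {w s : ℕ} (hw : w < Mx)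
    (hs : ∀ s' < s, dig (2 ^ ρ) w s' = rcd sh ((gseg sh b m T)^[s' + 1] c)) :
    M.pre Mx ρ b m T i (code sh ρ b i c) w s = code sh ρ b i ((gseg sh b m T)^[s] c) := by
  have e : ∀ k ≤ s, fo k (fun s y => digM Mx (pw Mx 2 ρ) w s +
      pw Mx 2 ρ * (M.seg Mx ρ b m T i y / pw Mx 2 ρ)) (code sh ρ b i c) =
      code sh ρ b i ((gseg sh b m T)^[k] c) := by
    intro k
    induction k with
    | zero => exact fun _ => rfl
    | succ k ih =>
      intro hk
      rw [fo, ih (by omega), pw_eq (pow_le1 hl hM), (h.gsegs k).seg_div hR hl hM, digM_of_lt hw,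
        hs k hk, iterate_succ_apply', code]
  rw [TM1.pre, itr_nat, e _ le_rfl]
  intro k hk
  rw [e k hk]
  exact ((h.gsegs k).code_lt hR hl).le.trans hM

theorem Inr.chk (h : Inr sh b m c) {w n : ℕ} (hw : w < Mx) :
    (∀ i < m, M.chk Mx ρ b m T i (code sh ρ b i c) n w) ↔
      ∀ s < n, dig (2 ^ ρ) w s = rcd sh ((gseg sh b m T)^[s + 1] c) := by
  constructor
  · intro H s
    induction s using Nat.strong_induction_on with
    | _ s ih =>
    intro hs
    have h1 := h.gsegs (T := T) s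
    have h2 := H _ (Nat.div_lt_of_lt_mul (mul_comm m b ▸ h1.2)) s hs
    dsimp only at h2
    rw [h.pre hR hl hM hw fun s' h' => ih s' h' (by omega), pw_eq (pow_le1 hl hM), h1.code_mod hR,
      rcd_div, h1.seg_mod hR hl hM rfl, digM_of_lt hw] at h2
    rw [iterate_succ_apply', ← h2.resolve_left (by simp)]
  · intro H i _ s hs
    have h1 := h.gsegs (T := T) s
    rw [h.pre hR hl hM hw fun s' h' => H s' (by omega), pw_eq (pow_le1 hl hM), h1.code_mod hR,
      rcd_div, digM_of_lt hw, H s hs, iterate_succ_apply']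
    exact (ne_or_eq _ _).imp id (h1.seg_mod hR hl hM)

end seg

variable (M)

/-- The segmented computation of `M` on `x`. -/
def sys (x : List (Fin a)) (Mx ρ b m T sh r L l : ℕ) : Sys :=
  ⟨l, ρ * L, r, m, fun i y w => M.pre Mx ρ b m T i y w (r * L),
    fun i y n w => M.chk Mx ρ b m T i y (n * L) w, fun i => M.ini x Mx ρ b sh i⟩

theorem outN_sys (x : List (Fin a)) {Mx ρ b m T sh r L l p len P : ℕ}
    (hv : Val l (ρ * L) r m Mx p len P) (hR : M.nq * (m * b) ≤ pw Mx 2 ρ)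
    (hl : pw Mx 2 ρ * pw Mx M.ng b ≤ pw Mx 2 l) (hsh : sh < m * b) :
    outN (M.sys x Mx ρ b m T sh r L l) Mx p len P % pw Mx 2 ρ % M.nq =
      ((gseg sh b m T)^[P * (r * L)] (init1 M x)).state := by
  have hv' := hv
  obtain ⟨hp, h1, h2, -, h4, h5, -⟩ := hv'
  have hp2 := hp.two_le
  have hM : p ^ (4 * len) < Mx := by rw [pw_eq_min] at h5; omega
  have h2M : ∀ n ≤ len, 2 ^ n < Mx := fun n hn =>
    ((Nat.pow_le_pow_left hp2 n).trans (Nat.pow_le_pow_right hp.pos (by omega))).trans_lt hM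
  have hM0 : 0 < Mx := by omega
  have g1 : 0 < pw Mx 2 ρ := by rw [pw_eq_min]; exact lt_min (by positivity) hM0
  have g2 : 0 < pw Mx M.ng b := by rw [pw_eq_min]; exact lt_min (Nat.pow_pos ng_pos) hM0
  rw [pw_eq (h2M _ h1).le] at hl
  have e1 : pw Mx 2 ρ = 2 ^ ρ := by
    have : pw Mx 2 ρ < Mx := ((Nat.le_mul_of_pos_right _ g2).trans hl).trans_lt (h2M _ h1)
    rw [pw_eq_min] at this ⊢; omega
  have e2 : pw Mx M.ng b = M.ng ^ b := by
    have : pw Mx M.ng b < Mx := ((Nat.le_mul_of_pos_left _ g1).trans hl).trans_lt (h2M _ h1)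
    rw [pw_eq_min] at this ⊢; omega
  rw [e1] at hR
  rw [e1, e2] at hl
  have hl' := (h2M _ h1).le
  have hi : Inr sh b m (init1 M x) := ⟨by simp [init1], by simpa [hdp, init1] using hsh⟩
  have pe : ∀ n, 2 ^ (n * (ρ * L)) = (2 ^ ρ) ^ (n * L) := fun n => by rw [← pow_mul]; ring_nf
  have hw : ∀ J, tab (2 ^ ρ) (r * L) (fun s => rcd sh ((gseg sh b m T)^[s + 1]
      ((gseg sh b m T)^[J * (r * L)] (init1 M x)))) < 2 ^ (r * (ρ * L)) := fun J => by
    rw [pe]; exact tab_lt (by positivity) _ _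
  have hdg : ∀ J, ∀ s < r * L, dig (2 ^ ρ) (tab (2 ^ ρ) (r * L) fun s => rcd sh ((gseg sh b m T)^[s + 1]
      ((gseg sh b m T)^[J * (r * L)] (init1 M x)))) s = rcd sh ((gseg sh b m T)^[s + 1]
      ((gseg sh b m T)^[J * (r * L)] (init1 M x))) := fun J s hs => by
    rw [dig_tab (by positivity) _ hs, Nat.mod_eq_of_lt (((hi.gsegs _).gsegs _).rcd_lt hR)]
  rw [outN_eq (M.sys x Mx ρ b m T sh r L l) hv
    (xv := fun i J => code sh ρ b i ((gseg sh b m T)^[J * (r * L)] (init1 M x)))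
    (wv := fun J => tab (2 ^ ρ) (r * L) fun s => rcd sh ((gseg sh b m T)^[s + 1]
      ((gseg sh b m T)^[J * (r * L)] (init1 M x)))) (fun i => ?_)
    (fun i J => (hi.gsegs _).code_lt hR hl) hw (fun i J => ?_) fun J j hj u hu => ?_, e1,
    (hi.gsegs _).code_mod hR, rcd_mod]
  · simp only [sys, ini, zero_mul, iterate_zero, id, code, e1, rcd, blkc]
    rw [tabM_eq ng_pos (pow_le2 hl hl')]
    congr 2
    · simp [hdp, init1]
    · refine tab_congr fun k _ => ?_
      simp only [init1]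
      split_ifs with h6 h7 h7
      · rw [sy_letter, show (((i * b + k : ℕ) : ℤ) - sh).toNat = i * b + k - sh by omega]
      · omega
      · omega
      · rfl
  · simp only [sys]
    rw [(hi.gsegs _).pre hR hl hl' ((hw J).trans (h2M _ h2)) (hdg J), ← iterate_add_apply,
      Nat.succ_mul, add_comm]
  · simp only [sys] at hj hu ⊢
    have hd := hdg J
    generalize tab (2 ^ ρ) (r * L) (fun s => rcd sh ((gseg sh b m T)^[s + 1]
      ((gseg sh b m T)^[J * (r * L)] (init1 M x)))) = w at hd ⊢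
    have hA : 0 < 2 ^ (j * (ρ * L)) := by positivity
    have hw' : w % 2 ^ (j * (ρ * L)) + u * 2 ^ (j * (ρ * L)) < 2 ^ ((j + 1) * (ρ * L)) := by
      have := Nat.mod_lt w hA
      have h7 := Nat.mul_le_mul_right (2 ^ (j * (ρ * L))) (Nat.succ_le_of_lt hu)
      rw [Nat.succ_mul] at h7
      rw [Nat.succ_mul, pow_add, mul_comm (2 ^ (j * (ρ * L)))]
      omega
    have hjL : (j + 1) * L ≤ r * L := Nat.mul_le_mul_right _ hj
    have e3 : w % 2 ^ ((j + 1) * (ρ * L)) =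
        w % 2 ^ (j * (ρ * L)) + w / 2 ^ (j * (ρ * L)) % 2 ^ (ρ * L) * 2 ^ (j * (ρ * L)) := by
      rw [Nat.succ_mul, pow_add, Nat.mod_mul, mul_comm (2 ^ (j * (ρ * L)))]
    rw [(hi.gsegs _).chk hR hl hl' (hw'.trans (h2M _ ((Nat.mul_le_mul_right _ hj).trans h2)))]
    constructor
    · intro H
      have e4 : w % 2 ^ (j * (ρ * L)) + u * 2 ^ (j * (ρ * L)) = w % 2 ^ ((j + 1) * (ρ * L)) := by
        refine eq_of_dig (b := 2 ^ ρ) (n := (j + 1) * L) (pe _ ▸ hw')
          (pe _ ▸ Nat.mod_lt _ (by positivity)) fun s hs => ?_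
        rw [H s hs, pe, dig_mod_pow (by positivity) _ hs, hd s (by omega)]
      rw [e3] at e4
      exact Nat.eq_of_mul_eq_mul_right hA (Nat.add_left_cancel e4)
    · rintro rfl s hs
      rw [← e3, pe, dig_mod_pow (by positivity) _ hs, hd s (by omega)]

end TM1

end Vale.Agent.P312
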